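import Crest.Agent.N325.P2.Util
import Crest.Agent.N325.P2.Defs2

/-!
# Row 325 (helper29): the values of the constants of part II and the numeric side conditions
-/

set_option autoImplicit false

namespace Crest.Agent.N325.P2.Cx

variable {T : Type}

/-- capacity in units, rounded up -/
def bb (X : Cx T) : ℕ := X.C.B / X.P.D + 1

/-- the values of the constants in terms of the size `N` and of `Z` -/
structure Val (X : Cx T) (N : ℕ) : Prop where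
  n : X.G.n ≤ 4 * N + 4
  ZN : X.C.Z ^ 30 ≤ N
  lg : ∃ l, X.C.M < 2 ^ l ∧ 2 ^ 70 * l ≤ X.C.Z
  NM : (N + 2) ^ 4 ≤ X.C.M
  Ph : X.C.Ph = 2 ^ 40
  B : X.C.B ≤ N * X.C.Z * X.P.D
  nu : X.C.nu = X.C.Z * X.bb
  ts : X.C.ts = X.C.Z * X.bb
  ex : X.C.ex = X.C.kb + 8
  L : X.C.L = X.C.Z
  fu : X.C.fu = (N + 2) ^ 3
  κ : X.κ = X.C.Z ^ 6
  Au : X.Au = X.C.Z ^ 8 * X.bb
  Rm : X.Rm = N * X.C.Z ^ 5
  F : X.Bd.F = N * X.C.Z ^ 30
  AU : X.k.AU = X.C.Z + 1004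
  AQ : X.k.AQ ≤ X.C.Z ^ 3
  AR : X.k.AR ≤ N * X.C.Z + 1
  cl : X.k.cl = 1000
  d0 : 1 / ((N : ℝ) + 2) ^ 3 ≤ X.g.d
  d1 : X.g.d < 1

/-- the field `lg` from a polynomial bound -/
theorem lg_of {M N c Z : ℕ} (h : M ≤ (N + 2) ^ c)
    (k : 2 ^ 70 * (c * (Nat.log 2 N + 2) + 1) ≤ Z) : ∃ l, M < 2 ^ l ∧ 2 ^ 70 * l ≤ Z := by
  refine ⟨_, h.trans_lt ?_, k⟩
  have a : N < 2 ^ (Nat.log 2 N + 1) := Nat.lt_pow_succ_log_self one_lt_two N
  have b : 2 ^ 1 ≤ 2 ^ (Nat.log 2 N + 1) := Nat.pow_le_pow_right two_pos (by omega)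
  have e : N + 2 ≤ 2 ^ (Nat.log 2 N + 2) := by rw [pow_succ _ (_ + 1)]; omega
  calc _ ≤ (2 ^ (Nat.log 2 N + 2)) ^ c := Nat.pow_le_pow_left e _
    _ = 2 ^ (c * (Nat.log 2 N + 2)) := by rw [← pow_mul, mul_comm]
    _ < _ := Nat.pow_lt_pow_right one_lt_two (by omega)

variable {X : Cx T} {N : ℕ}

theorem bb_pos (X : Cx T) : 1 ≤ X.bb := Nat.le_add_left _ _

theorem Ok.bb_ge (h : X.Ok) : 101 ≤ X.bb :=
  Nat.succ_le_succ ((Nat.le_div_iff_mul_le h.D_pos).2 h.B.2)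

/-- `B < bb D` -/
theorem Ok.B_lt (h : X.Ok) : X.C.B < X.bb * X.P.D := by
  rw [mul_comm]; exact Nat.lt_mul_div_succ _ h.D_pos

/-- `bb D ≤ 2 B` -/
theorem Ok.bb_le (h : X.Ok) : X.bb * X.P.D ≤ 2 * X.C.B := by
  have := Nat.div_mul_le_self X.C.B X.P.D
  have := h.B.2
  rw [bb, add_mul]; omega

theorem Ok.B_div_le (h : X.Ok) : (X.C.B : ℝ) / X.P.D ≤ X.bb := by
  have a : (0 : ℝ) < X.P.D := by exact_mod_cast h.D_pos
  rw [div_le_iff₀ a]
  exact_mod_cast h.B_lt.le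

namespace Val
variable (v : X.Val N)
include v

theorem Z_ge : 2 ^ 70 ≤ X.C.Z := by
  obtain ⟨l, a, b⟩ := v.lg
  have c : 1 ≤ X.C.M := le_trans (Nat.one_le_pow _ _ (by omega)) v.NM
  rcases l with _ | l
  · omega
  · exact le_trans (Nat.le_mul_of_pos_right _ (Nat.succ_pos _)) b

theorem pw {i j : ℕ} (k : i ≤ j) : X.C.Z ^ i ≤ X.C.Z ^ j :=
  Nat.pow_le_pow_right (by have := v.Z_ge; omega) k

/-- one more power absorbs a constant -/
theorem up (a i : ℕ) : 2 ^ 70 * (a * X.C.Z ^ i) ≤ a * X.C.Z ^ (i + 1) := by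
  rw [pow_succ' _ i, mul_left_comm a]
  exact Nat.mul_le_mul_right _ v.Z_ge

theorem mono (a : ℕ) {i j : ℕ} (k : i ≤ j) : a * X.C.Z ^ i ≤ a * X.C.Z ^ j :=
  Nat.mul_le_mul_left _ (v.pw k)

theorem pw_le {i : ℕ} (k : i ≤ 30) : X.C.Z ^ i ≤ N := (v.pw k).trans v.ZN

theorem Z_le : X.C.Z ≤ N := by simpa using v.pw_le (i := 1) (by omega)

theorem N_ge : 2 ^ 70 ≤ N := v.Z_ge.trans v.Z_le

theorem n_le : X.G.n + 1 ≤ 5 * N := by have := v.n; have := v.N_ge; omega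

theorem AU_le : X.k.AU ≤ 2 * X.C.Z := by have := v.AU; have := v.Z_ge; omega

theorem bb_le (h : X.Ok) : X.bb ≤ 2 * (N * X.C.Z) := by
  have a := h.bb_le
  have b := v.B
  refine Nat.le_of_mul_le_mul_right (c := X.P.D) ?_ h.D_pos
  rw [mul_assoc 2]; omega

/-- `Z ^ i bb ≤ 2 N Z ^ (i + 1)` -/
theorem zb_le (h : X.Ok) (i : ℕ) : X.bb * X.C.Z ^ i ≤ 2 * (N * X.C.Z ^ (i + 1)) :=
  (Nat.mul_le_mul_right _ (v.bb_le h)).trans_eq (by ring)

theorem N4_le (h : X.Ok) : (N + 2) ^ 4 ≤ X.g.X := v.NM.trans h.M_le_X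

/-- `N Z ^ i` is a legal number -/
theorem nz_le {i : ℕ} (k : i ≤ 30) : 2 ^ 70 * (N * X.C.Z ^ i) ≤ (N + 2) ^ 3 := by
  have a := v.pw_le k
  have b := v.N_ge
  calc _ ≤ (N + 2) * ((N + 2) * (N + 2)) :=
        Nat.mul_le_mul (by omega) (Nat.mul_le_mul (by omega) (by omega))
    _ = _ := by ring

theorem N3_le (h : X.Ok) : (N + 2) ^ 3 ≤ X.g.X :=
  (Nat.pow_le_pow_right (by omega) (by omega)).trans (v.N4_le h)

/-- the numeric hypothesis of `initSpec` -/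
theorem hF : X.k.AR + 4 * X.k.AU * X.G.n ≤ X.Bd.F := by
  have a := Nat.mul_le_mul (Nat.mul_le_mul_left 4 v.AU_le) ((Nat.le_succ _).trans v.n_le)
  have b := v.up N 1
  have c := v.mono N (i := 1 + 1) (j := 30) (by omega)
  have d := v.AR
  have e : 4 * (2 * X.C.Z) * (5 * N) = 40 * (N * X.C.Z) := by ring
  have f : 1 ≤ N * X.C.Z := Nat.mul_pos (by have := v.N_ge; omega) (by have := v.Z_ge; omega)
  rw [pow_one] at b
  rw [v.F]; omega

/-- the budget of a phase -/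
theorem ini (h : X.Ok) {c0 : ℕ} (hc : c0 ≤ 1000) (gap : ℕ)
    (k : gap * X.C.B ≤ 2 * c0 * X.G.n * X.P.D) :
    X.k.AR + X.κ * (X.G.n + 1) * X.C.Z ^ 2 + X.κ * X.Au * gap + X.k.AQ + 2 +
      X.Rm * (2 * X.k.AU) ≤ X.Bd.F := by
  have hN := v.N_ge
  have a1 : gap * X.bb ≤ 20000 * N := by
    refine Nat.le_of_mul_le_mul_right (c := X.P.D) ?_ h.D_pos
    have b1 := Nat.mul_le_mul_left gap h.bb_le
    have b2 : 2 * c0 * X.G.n * X.P.D ≤ 2 * 1000 * (5 * N) * X.P.D :=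
      Nat.mul_le_mul_right _ (Nat.mul_le_mul (by omega) ((Nat.le_succ _).trans v.n_le))
    calc _ = gap * (X.bb * X.P.D) := mul_assoc _ _ _
      _ ≤ 2 * (gap * X.C.B) := b1.trans_eq (by ring)
      _ ≤ 2 * (2 * 1000 * (5 * N) * X.P.D) := by omega
      _ = _ := by ring
  have a2 : X.κ * X.Au * gap ≤ 20000 * (N * X.C.Z ^ 14) := by
    rw [v.κ, v.Au]
    calc _ = gap * X.bb * X.C.Z ^ 14 := by ring
      _ ≤ 20000 * N * X.C.Z ^ 14 := Nat.mul_le_mul_right _ a1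
      _ = _ := by ring
  have a3 : X.κ * (X.G.n + 1) * X.C.Z ^ 2 ≤ 5 * (N * X.C.Z ^ 8) := by
    rw [v.κ]
    exact (Nat.mul_le_mul_right _ (Nat.mul_le_mul_left _ v.n_le)).trans_eq (by ring)
  have a4 : X.Rm * (2 * X.k.AU) ≤ 4 * (N * X.C.Z ^ 6) := by
    rw [v.Rm]
    exact (Nat.mul_le_mul_left _ (Nat.mul_le_mul_left 2 v.AU_le)).trans_eq (by ring)
  have a5 : X.k.AQ ≤ N * X.C.Z ^ 3 := v.AQ.trans (Nat.le_mul_of_pos_left _ (by omega))
  have a6 := v.AR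
  have b0 := v.mono N (i := 0) (j := 14) (by omega)
  have b1 := v.mono N (i := 1) (j := 14) (by omega)
  have b2 := v.mono N (i := 3) (j := 14) (by omega)
  have b3 := v.mono N (i := 6) (j := 14) (by omega)
  have b4 := v.mono N (i := 8) (j := 14) (by omega)
  have b5 := v.up N 14
  have b6 := v.mono N (i := 14 + 1) (j := 30) (by omega)
  rw [pow_one] at b1
  rw [pow_zero] at b0
  rw [v.F]; omega

/-- the numeric condition of AUGMENT -/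
theorem aug (h : X.Ok) {Wa : ℕ} (k : Wa ≤ X.bb * X.C.Z ^ 4) : X.AugNum Wa := by
  have hZ := v.Z_ge
  have a1 := h.B_div_le
  have a2 := h.Lg_le
  have a3 := h.Lg_nonneg
  have z : (2 : ℝ) ^ 70 ≤ X.C.Z := by exact_mod_cast hZ
  have b1 : X.C.Z * (X.C.Z * X.bb + X.C.Z * (Wa + 10)) ≤ X.Au := by
    have c0 := h.bb_ge
    have c1 := v.mono X.bb (i := 0) (j := 4) (by omega)
    rw [pow_zero] at c1
    have c2 := v.mono X.bb (i := 2) (j := 6) (by omega)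
    have c3 := v.up X.bb 6
    have c4 := v.mono X.bb (i := 6 + 1) (j := 8) (by omega)
    have c5 : X.C.Z * (X.C.Z * (Wa + 10)) ≤ 2 * (X.bb * X.C.Z ^ 6) :=
      (Nat.mul_le_mul_left _ (Nat.mul_le_mul_left _
        (show Wa + 10 ≤ 2 * (X.bb * X.C.Z ^ 4) by omega))).trans_eq (by ring)
    have c6 : X.C.Z * (X.C.Z * X.bb) = X.bb * X.C.Z ^ 2 := by ring
    rw [v.Au, mul_comm (_ ^ 8), mul_add]; omega
  refine le_trans ?_ (show ((X.C.Z * (X.C.Z * X.bb + X.C.Z * (Wa + 10)) : ℕ) : ℝ) ≤ _ by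
    exact_mod_cast b1)
  push_cast
  rw [v.Ph, mul_div_assoc]
  refine mul_le_mul_of_nonneg_left (add_le_add (mul_le_mul ?_ a1 (by positivity) (by positivity))
    (mul_le_mul_of_nonneg_right (by linarith) (by positivity))) (by positivity)
  push_cast; linarith

end Val

end Crest.Agent.N325.P2.Cx
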