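import Crest.Agent.N325.Fin.Cx
import Crest.Agent.N325.Fin.Nm

/-! # N325 / Fin (helper37): the values of the context of a phase; the range of the phases -/

set_option autoImplicit false

namespace Crest.Agent.N325.Fin

open Tw Ip P2 Mt

variable {c1 N Q kb : ℕ} {r : Raw} {T : Type} {run : Cmd × T → R (T × Rep × Bool)} {G : Gf}
  {g : Gl} {Sh : T → Prop} {I : St T → Net → Prop} {Φ : St T → ℝ}

theorem cx_val (o : RawOk c1 N Q r) (h : Big c1 N Q) (hn : G.n ≤ 4 * N + 4)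
    (k2 : 2 ^ kb ≤ N * Q * r.D) (d0 : 1 / ((N : ℝ) + 2) ^ 3 ≤ g.d) (d1 : g.d < 1) :
    (cx r N Q run G g Sh I Φ kb).Val N := by
  refine ⟨hn, h.le_N (by norm_num), ⟨8 * ((c1 + 8) * (Nat.log 2 N + 2)) + 1,
    o.Mu_le.trans_lt (Nat.pow_lt_pow_right one_lt_two (Nat.lt_succ_self _)), ?_⟩, ?_, rfl, k2, rfl,
    rfl, rfl, rfl, rfl, rfl, rfl, rfl, o.F, rfl, ?_, le_rfl, rfl, d0, d1⟩
  · have h1 := h.lc'
    have h2 : 1 ≤ (c1 + 8) * (Nat.log 2 N + 2) := Nat.mul_pos (by omega) (by omega)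
    change _ ≤ Q
    omega
  · change _ ≤ r.W * r.D
    rw [o.W]; exact Nat.le_mul_of_pos_right _ o.pos.D
  · have h1 := h.AQ; have h2 := h.up 2 3
    change (icF N Q).AQ ≤ Q ^ 3
    omega

theorem RawOk.F_lt (o : RawOk c1 N Q r) (h : Big c1 N Q) : r.F < r.fu := by
  rw [o.F, o.fu]
  exact Nat.lt_succ_of_le (h.FF_le.trans (xpow_mono N (by omega)))

/-- the first phase -/
theorem size_range (D : ℕ) (hD : 1 ≤ D) :
    100 * D ≤ 2 ^ (100 * D).size ∧ 2 ^ (100 * D).size ≤ 200 * D := by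
  refine ⟨(Nat.lt_size_self _).le, ?_⟩
  have h1 : 0 < (100 * D).size := Nat.size_pos.2 (by omega)
  have h2 : 2 ^ ((100 * D).size - 1) ≤ 100 * D := Nat.lt_size.1 (by omega)
  have h3 : 2 ^ (100 * D).size = 2 ^ ((100 * D).size - 1) * 2 := by
    rw [← pow_succ]; congr 1; omega
  omega

/-- all phases are in range -/
theorem Big.range (h : Big c1 N Q) {D kb0 j : ℕ} (a : 100 * D ≤ 2 ^ kb0) (b : 2 ^ kb0 ≤ 400 * D)
    (h1 : kb0 ≤ j) (h2 : j < kb0 + (Nat.log 2 N + 20)) : 100 * D ≤ 2 ^ j ∧ 2 ^ j ≤ N * Q * D := by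
  refine ⟨a.trans (Nat.pow_le_pow_right two_pos h1), ?_⟩
  have h3 : 2 ^ Nat.log 2 N ≤ N := Nat.pow_log_le_self 2 (by have := h.hN; omega)
  have h4 := h.q
  calc 2 ^ j ≤ 2 ^ (kb0 + (Nat.log 2 N + 20)) := Nat.pow_le_pow_right two_pos h2.le
    _ = 2 ^ Nat.log 2 N * (2 ^ 20 * 2 ^ kb0) := by ring
    _ ≤ N * (2 ^ 20 * (400 * D)) := Nat.mul_le_mul h3 (Nat.mul_le_mul_left _ b)
    _ = N * (2 ^ 20 * 400) * D := by ring
    _ ≤ _ := Nat.mul_le_mul_right _ (Nat.mul_le_mul_left _ (by omega))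

/-- the last capacity exceeds the error term -/
theorem last_big {n D kb0 : ℕ} (hn : n ≤ 4 * N + 4) (hD : 1 ≤ D) (a : 100 * D ≤ 2 ^ kb0) :
    1000 * n * D < 2 ^ (kb0 + (Nat.log 2 N + 20) - 1) := by
  have h1 := x_le_two_pow N
  calc 1000 * n * D ≤ 1000 * (4 * (N + 2)) * D :=
        Nat.mul_le_mul_right _ (Nat.mul_le_mul_left _ (by omega))
    _ = 100 * D * (40 * (N + 2)) := by ring
    _ < 100 * D * (2 ^ 17 * 2 ^ (Nat.log 2 N + 2)) :=
        Nat.mul_lt_mul_of_pos_left (by omega) (by omega)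
    _ ≤ 2 ^ kb0 * (2 ^ 17 * 2 ^ (Nat.log 2 N + 2)) := Nat.mul_le_mul_right _ a
    _ = _ := by rw [← pow_add, ← pow_add]; congr 1; omega

end Crest.Agent.N325.Fin
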