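import Crest.Agent.N325.Fin.Ma0
import Crest.Agent.N325.Fin.Val
import Crest.Agent.N325.Ml.Phase

/-!
# Row 325 (helper57): seam (C) from the events
-/

set_option autoImplicit false

namespace Crest.Agent.N325.Fin

open Filter Tw Mt Ip P2

/-- **seam (E)**: the events of a phase -/
def EvStmt : Prop :=
  ∀ (T : Type) [Rp T], ∃ (lab unl : Env T → S T → ℕ → R (S T))
    (ins edg : Env T → S T → ℕ → List ℕ → R (S T)) (ini : Env T → T → Arr ℕ → R (S T)),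
    (Impl fun p : Env T × T × Arr ℕ => phaseE lab unl ins edg ini p.1 p.2) ∧
    ∀ (X : Cx T) (N : ℕ), X.Ok → X.Val N →
      X.LabelSpec (lab X.toEnv) ∧ X.UnlabSpec (unl X.toEnv) ∧ X.InsSpec (ins X.toEnv) ∧
        X.EdgeSpec (edg X.toEnv) ∧
        X.InitSpec (ini X.toEnv) (X.k.AR + X.κ * (X.G.n + 1) * X.C.Z ^ 2) ∧ X.EndSpec 200

section
variable {T : Type} (lab unl : Env T → S T → ℕ → R (S T))
  (ins edg : Env T → S T → ℕ → List ℕ → R (S T)) (ini : Env T → T → Arr ℕ → R (S T))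

/-- parameters of the phases, all phases -/
def coreR (c1 : ℕ) (u : Rn T × Pm × Gf × ℕ × ℕ × T) : R (Arr ℕ) :=
  nat (u.2.2.2.1 * u.2.2.2.2.1 ^ 30) >>= fun F => rawFR c1 u.2.2.2.1 u.2.2.2.2.1 F >>= fun r =>
    nat (100 * u.2.1.D) >>= fun a => lg2 a >>= fun k => lg2 u.2.2.2.1 >>= fun l =>
      p2 lab unl ins edg ini u.1 u.2.1 u.2.2.1
        (fun j => cfR r u.2.1 u.2.2.2.1 u.2.2.2.2.1 j) (k + 1) (l + 20) u.2.2.2.2.2

theorem impl_coreR [Rp T] (c1 : ℕ)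
    (h : Impl fun p : Env T × T × Arr ℕ => phaseE lab unl ins edg ini p.1 p.2) :
    Impl (coreR lab unl ins edg ini c1) := by
  obtain ⟨ph, e⟩ : ∃ ph : Env T × T × Arr ℕ → R (T × Arr ℕ),
      ∀ E u, phaseE lab unl ins edg ini E u = ph (E, u) :=
    ⟨fun p => phaseE lab unl ins edg ini p.1 p.2, fun _ _ => rfl⟩
  simp only [e] at h
  unfold coreR p2 cfR
  simp only [e]
  impl

end

/-- **seam (C) from seam (E)** -/
theorem core_of_ev (h : EvStmt) : CoreStmt := by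
  intro c1 T _
  obtain ⟨lab, unl, ins, edg, ini, i1, h⟩ := h T
  refine ⟨coreR lab unl ins edg ini c1, 36 * (c1 + 8), 30, 40, impl_coreR _ _ _ _ _ c1 i1, ?_⟩
  filter_upwards [ev_big c1] with N hb Q q1 q2 g run Sh I Φ G t0 x1 d0 d1 ip wf hn sh
  have b := hb 40 Q le_rfl q1 q2
  have o := rawOk b
  have hN := b.hN
  have hQ := b.QN
  have q := b.q
  have x2 : (N + 2) ^ 2 ≤ g.X := (xpow_mono N (by omega)).trans x1
  have hD := o.pos.D
  have x3 : 100 * (rawF c1 N Q (FF N Q)).D ≤ ((N + 2) ^ (c1 + 8)) ^ 8 := by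
    rw [pow_succ' _ 7]
    exact Nat.mul_le_mul (le_trans (by norm_num) o.le.big) o.le.D
  refine sp_bind.2 (sp_nat.2 ⟨b.FF_le.trans x2, ?_⟩)
  refine (sp_rawFR (le_trans (by nlinarith) x2) ((xpow_mono N (by omega)).trans x1)).bind ?_
  rintro _ _ ⟨rfl, rfl⟩
  refine sp_bind.2 (sp_nat.2 ⟨x3.trans (by
    rw [← pow_mul]; exact (xpow_mono N (by omega)).trans x1), ?_⟩)
  refine (sp_lg2 _).bind ?_
  rintro _ t1 ⟨rfl, e1⟩
  refine (sp_lg2 _).bind ?_
  rintro _ t2 ⟨rfl, e2⟩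
  dsimp only at *
  change t1 ≤ Nat.log 2 (100 * (rawF c1 N Q (FF N Q)).D) + 1 at e1
  generalize hk : Nat.log 2 (100 * (rawF c1 N Q (N * Q ^ 30)).P.D) = k
  change Nat.log 2 (100 * (rawF c1 N Q (FF N Q)).D) = k at hk
  rw [hk] at e1
  have k1 : 100 * (rawF c1 N Q (FF N Q)).D ≤ 2 ^ (k + 1) :=
    hk ▸ (Nat.lt_pow_succ_log_self one_lt_two _).le
  have k2 : 2 ^ (k + 1) ≤ 400 * (rawF c1 N Q (FF N Q)).D := by
    have := Nat.pow_log_le_self 2 (x := 100 * (rawF c1 N Q (FF N Q)).D) (by omega)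
    rw [hk] at this
    rw [pow_succ]; omega
  have k3 := o.kb_le b (b.range k1 k2 le_rfl (by omega)).2
  refine (sp_p2 (c0 := 200) (F := FF N Q) (cx (rawF c1 N Q (FF N Q)) N Q run G g Sh I Φ)
    (fun j a1 a2 => ?_) (by omega) k2 sh).mono ?_
  · obtain ⟨r1, r2⟩ := b.range k1 k2 a1 a2
    have ok := cx_ok o b ip wf hn x1 r1 r2
    have v := cx_val (run := run) (Sh := Sh) (I := I) (Φ := Φ) o b hn r2 d0 d1
    obtain ⟨s1, s2, s3, s4, s5, s6⟩ := h _ N ok v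
    exact ⟨⟨ok, s1, s2, s3, s4, ⟨_, s5, v.ini ok (by norm_num)⟩, s6, o.F_lt b, xmin_att G⟩, rfl,
      rfl, rfl, rfl, rfl, rfl, rfl, sp_cfR o b x1 r2⟩
  · rintro m t ⟨m1, m2, e3⟩
    refine ⟨m1, fun m' hm => ?_, ?_⟩
    · have y1 := m2 m' hm
      have y2 := last_big hn hD k1
      change _ ≤ _ + 200 * G.n * (rawF c1 N Q (FF N Q)).D at y1
      refine Nat.le_of_lt_succ (Nat.lt_of_mul_lt_mul_right
        (a := 2 ^ (k + 1 + (Nat.log 2 N + 20) - 1)) ?_)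
      rw [Nat.succ_mul]
      rw [mul_assoc] at y1 y2
      omega
    · have y1 := b.l1
      have y2 : N ≤ FF N Q := Nat.le_mul_of_pos_right _ (Nat.one_le_pow _ _ (by omega))
      have y3 : (Nat.log 2 N + 20) * (2 * FF N Q + 9) ≤ Q * (3 * FF N Q) :=
        Nat.mul_le_mul (by omega) (by omega)
      have y4 : N * Q ^ 40 = Q * FF N Q * Q ^ 9 := by rw [FF]; ring
      have y5 : Q * FF N Q * 100 ≤ Q * FF N Q * Q ^ 9 :=
        Nat.mul_le_mul_left _ (le_trans (by omega) (Nat.le_self_pow (by norm_num) Q))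
      have y6 : FF N Q ≤ Q * FF N Q := Nat.le_mul_of_pos_left _ (by omega)
      have y7 : Q * (3 * FF N Q) = 3 * (Q * FF N Q) := by ring
      omega

end Crest.Agent.N325.Fin
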