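import Crest.Agent.N325.Fin.Ip1
import Crest.Agent.N325.P2.Defs2
import Crest.Agent.N325.P2.Util

/-!
# N325 / Fin (helper37): the context of a phase and its numeric side conditions
-/

set_option autoImplicit false

namespace Crest.Agent.N325.Fin

open Tw Ip P2 Mt Filter

/-- large inputs -/
structure Big (c1 N Q : ℕ) : Prop where
  l : 2 ^ 80 * (c1 + 8) * (Nat.log 2 N + 2) ^ 3 ≤ Q
  n : Q ^ 40 ≤ N

theorem ev_big (c1 : ℕ) : ∀ᶠ N : ℕ in atTop, ∀ e Q : ℕ, 40 ≤ e → (Nat.log 2 N + 2) ^ e ≤ Q →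
    Q ^ e ≤ N → Big c1 N Q := by
  filter_upwards [tendsto_log2.eventually_ge_atTop (2 ^ 80 * (c1 + 8))] with N h e Q he h1 h2
  have h3 : (Nat.log 2 N + 2) ^ 4 ≤ Q := (Nat.pow_le_pow_right (by omega) (by omega)).trans h1
  have h4 : 1 ≤ Q := (Nat.one_le_pow _ _ (by omega)).trans h3
  refine ⟨le_trans ?_ h3, (Nat.pow_le_pow_right h4 he).trans h2⟩
  rw [pow_succ' _ 3]
  exact Nat.mul_le_mul_right _ (by omega)

/-- the time budget of a phase -/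
def FF (N Q : ℕ) : ℕ := N * Q ^ 30

/-- the capacity in real units, rounded up -/
def bb (r : Raw) (kb : ℕ) : ℕ := 2 ^ kb / r.D + 1

/-- the stored parameters of the phase `kb` -/
def cf (r : Raw) (N Q kb : ℕ) : Cf :=
  ⟨Q, 2 ^ 40, 2 ^ kb, kb, r.W * r.D, r.s0, Nat.log 2 N + 10, Q * bb r kb, kb + 8, Q * bb r kb, Q,
    (N + 2) ^ 3⟩

/-- the least number of exposed vertices -/
noncomputable def xmin (G : Gf) : ℕ :=
  sInf {x | ∃ m, IsM (Finset.range G.n) G.E m ∧ ex (Finset.range G.n) m = x}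

theorem xmin_le {G : Gf} {m : ℕ → ℕ} (h : IsM (Finset.range G.n) G.E m) :
    xmin G ≤ ex (Finset.range G.n) m := Nat.sInf_le ⟨m, h, rfl⟩

theorem xmin_att (G : Gf) :
    ∃ m, IsM (Finset.range G.n) G.E m ∧ ex (Finset.range G.n) m = xmin G :=
  Nat.sInf_mem (s := {x | ∃ m, IsM (Finset.range G.n) G.E m ∧ ex (Finset.range G.n) m = x})
    ⟨_, id, fun _ hv => ⟨hv, rfl, fun h => (h rfl).elim⟩, rfl⟩

/-- the ghost context of the phase `kb` -/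
noncomputable def cx {T : Type} (r : Raw) (N Q : ℕ) (run : Cmd × T → R (T × Rep × Bool)) (G : Gf)
    (g : Gl) (Sh : T → Prop) (I : St T → Net → Prop) (Φ : St T → ℝ) (kb : ℕ) : Cx T where
  run := run
  P := r.P
  C := cf r N Q kb
  G := G
  g := g
  Bd := r.B (128 * (N + 1)) (128 * (N + 1))
  k := icF N Q
  Sh := Sh
  I := I
  Φ := Φ
  κ := Q ^ 6
  Au := Q ^ 8 * bb r kb
  Rm := N * Q ^ 5
  xm := xmin G

/-- what is used of the raw scales -/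
structure RawOk (c1 N Q : ℕ) (r : Raw) : Prop where
  pos : r.Pos
  le : r.Le ((N + 2) ^ (c1 + 8))
  W : r.W = (N + 2) ^ 4
  cb : r.cb = (N + 2) ^ 3
  pb : r.pb = (N + 2) ^ 2
  Λ : r.Λ = (N + 2) ^ 6
  F : r.F = FF N Q
  fu : r.fu = (N + 2) ^ (c1 + 8) + 1

variable {c1 N Q kb : ℕ} {r : Raw}

namespace Big

theorem l3 (h : Big c1 N Q) : 2 ^ 53 * (Nat.log 2 N + 2) ^ 3 ≤ Q :=
  le_trans (Nat.mul_le_mul_right _ (by omega)) h.l
theorem l2 (h : Big c1 N Q) : 2 ^ 54 * (Nat.log 2 N + 2) ^ 2 ≤ Q := by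
  refine le_trans ?_ h.l3
  rw [pow_succ' _ 2, ← mul_assoc]; exact Nat.mul_le_mul_right _ (by omega)
theorem l1 (h : Big c1 N Q) : 2 ^ 55 * (Nat.log 2 N + 2) ≤ Q := by
  refine le_trans ?_ h.l2
  rw [sq, ← mul_assoc]; exact Nat.mul_le_mul_right _ (by omega)
theorem lc' (h : Big c1 N Q) : 2 ^ 82 * ((c1 + 8) * (Nat.log 2 N + 2)) ≤ Q := by
  refine le_trans ?_ h.l
  have : 4 ≤ (Nat.log 2 N + 2) ^ 2 := Nat.pow_le_pow_left (n := 2) (by omega) 2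
  calc 2 ^ 82 * ((c1 + 8) * (Nat.log 2 N + 2))
      = 2 ^ 80 * (c1 + 8) * (4 * (Nat.log 2 N + 2)) := by ring
    _ ≤ 2 ^ 80 * (c1 + 8) * ((Nat.log 2 N + 2) ^ 2 * (Nat.log 2 N + 2)) :=
        Nat.mul_le_mul_left _ (Nat.mul_le_mul_right _ this)
    _ = _ := by ring
theorem lc (h : Big c1 N Q) : 2 ^ 52 * ((c1 + 8) * (Nat.log 2 N + 2)) ≤ Q := by
  have := h.lc'; omega
theorem q (h : Big c1 N Q) : 2 ^ 56 ≤ Q := by have := h.l1; omega
theorem pos (h : Big c1 N Q) : 1 ≤ Q := by have := h.q; omega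
/-- one more factor `Q` absorbs a constant -/
theorem mono (h : Big c1 N Q) {i j : ℕ} (k : i ≤ j) : Q ^ i ≤ Q ^ j := Nat.pow_le_pow_right h.pos k
theorem up (h : Big c1 N Q) (i j : ℕ) (k : i < j := by norm_num) : 2 ^ 56 * Q ^ i ≤ Q ^ j :=
  ((Nat.mul_le_mul_right _ h.q).trans (pow_succ' Q i).ge).trans (h.mono k)
theorem up1 (h : Big c1 N Q) (j : ℕ) (k : 1 < j := by norm_num) : 2 ^ 56 * Q ≤ Q ^ j := by
  simpa only [pow_one] using h.up 1 j k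
theorem le_N (h : Big c1 N Q) {i : ℕ} (k : i ≤ 40) : Q ^ i ≤ N := (h.mono k).trans h.n
theorem QN (h : Big c1 N Q) : 2 ^ 56 * Q ≤ N := by
  exact (h.up1 2).trans (h.le_N (by norm_num))
theorem hN (h : Big c1 N Q) : 2 ^ 112 ≤ N := by have := h.QN; have := h.q; omega
theorem FF_le (h : Big c1 N Q) : FF N Q ≤ (N + 2) ^ 2 := by
  rw [FF, sq]; exact Nat.mul_le_mul (by omega) ((h.le_N (by norm_num)).trans (by omega))
theorem AQ (h : Big c1 N Q) : (icF N Q).AQ ≤ 5 * Q ^ 2 := by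
  change (4 * Q + 1) * Q + 6 ≤ _
  have := h.up1 2; have := h.q
  have e : (4 * Q + 1) * Q = 4 * Q ^ 2 + Q := by ring
  omega
theorem AP (h : Big c1 N Q) : 2 ^ 30 * (icF N Q).AP ≤ Q ^ 5 := by
  change 2 ^ 30 * (((4 * Q + 1) * Q + 5) * 10 ^ 6 * Q ^ 2) ≤ _
  have h1 : (4 * Q + 1) * Q + 6 ≤ 5 * Q ^ 2 := h.AQ
  calc _ ≤ 2 ^ 30 * (5 * Q ^ 2 * 10 ^ 6 * Q ^ 2) :=
        Nat.mul_le_mul_left _ (Nat.mul_le_mul_right _ (Nat.mul_le_mul_right _ (by omega)))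
    _ = 2 ^ 30 * 5 * 10 ^ 6 * Q ^ 4 := by ring
    _ ≤ _ := le_trans (Nat.mul_le_mul_right _ (by norm_num)) (h.up 4 5)
end Big

theorem Big.xs (h : Big c1 N Q) (i j : ℕ) (k : i < j := by norm_num) :
    2 ^ 100 * (N + 2) ^ i ≤ (N + 2) ^ j :=
  ((Nat.mul_le_mul_right _ (by have := h.hN; omega)).trans (pow_succ' (N + 2) i).ge).trans
    (xpow_mono N k)

theorem icF_AU : (icF N Q).AU = Q + 1004 := rfl
theorem icF_cl : (icF N Q).cl = 1000 := rfl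
theorem icF_AR : (icF N Q).AR = N * Q + 1 := rfl

theorem x_le_two_pow (N : ℕ) : N + 2 ≤ 2 ^ (Nat.log 2 N + 2) := by
  have := Nat.lt_pow_succ_log_self (b := 2) (by norm_num) N
  have := Nat.one_le_two_pow (n := Nat.log 2 N)
  rw [pow_succ] at *; rw [pow_succ]; omega

theorem log_le_of_le_two_pow {a i : ℕ} (ha : 1 ≤ a) (h : a ≤ 2 ^ i) : Real.log a ≤ i := by
  have h1 : (a : ℝ) ≤ 2 ^ i := by exact_mod_cast h
  have h2 : (0 : ℝ) < a := by exact_mod_cast ha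
  refine (Real.log_le_log h2 h1).trans ?_
  rw [Real.log_pow]
  have := Real.log_two_lt_d9
  have h3 : (0 : ℝ) ≤ i := Nat.cast_nonneg _
  nlinarith

theorem RawOk.Mu_le (o : RawOk c1 N Q r) :
    r.W * r.D ≤ 2 ^ (8 * ((c1 + 8) * (Nat.log 2 N + 2))) := by
  refine o.le.Mu.trans ?_
  rw [mul_comm 8, pow_mul, mul_comm (c1 + 8), pow_mul]
  exact Nat.pow_le_pow_left (Nat.pow_le_pow_left (x_le_two_pow N) _) _

section cx
variable {T : Type} {run : Cmd × T → R (T × Rep × Bool)} {G : Gf} {g : Gl} {Sh : T → Prop}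
  {I : St T → Net → Prop} {Φ : St T → ℝ}

theorem cx_Lg (o : RawOk c1 N Q r) (h : Big c1 N Q) :
    2 ^ 49 * (cx r N Q run G g Sh I Φ kb).Lg ≤ Q := by
  have h1 := log_le_of_le_two_pow (Nat.mul_pos o.pos.W o.pos.D) o.Mu_le
  have h2 : ((2 ^ 52 * ((c1 + 8) * (Nat.log 2 N + 2)) : ℕ) : ℝ) ≤ Q := by exact_mod_cast h.lc
  change 2 ^ 49 * Real.log ((r.W * r.D : ℕ) : ℝ) ≤ _
  push_cast at h1 h2 ⊢
  linarith

/-- **the context of a phase is sound** -/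
theorem cx_ok (o : RawOk c1 N Q r) (h : Big c1 N Q)
    (ip : IpSpec g run r.P (r.B (128 * (N + 1)) (128 * (N + 1))) (icF N Q) Sh I Φ) (wf : G.WF)
    (hn : G.n ≤ 4 * N + 4) (hX : (N + 2) ^ (36 * (c1 + 8)) ≤ g.X) (k1 : 100 * r.D ≤ 2 ^ kb)
    (k2 : 2 ^ kb ≤ N * Q * r.D) : (cx r N Q run G g Sh I Φ kb).Ok := by
  have hN := h.hN; have hQ := h.QN; have hq := h.q; have hl := h.l1
  have x2 : 2 ^ 100 * (N + 2) ≤ (N + 2) ^ 2 := by rw [sq]; exact Nat.mul_le_mul_right _ (by omega)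
  refine ⟨ip, wf, fun m => xmin_le, ?_, ?_, ?_, ?_, rfl, ⟨o.pos.sm, r.sm_le_s0, le_rfl⟩, ?_,
    ⟨rfl, k1⟩, ?_, ?_, ⟨?_, ?_⟩, le_rfl, ?_, (by norm_num : 100 ≤ 1000), ?_, ?_, ?_,
    (by omega : 100 ≤ Q + 1004)⟩
  · change 15 * G.n + 5 ≤ 128 * (N + 1); omega
  · change G.n + 1 ≤ 128 * (N + 1); omega
  · change 5 * 2 ^ 40 * Q ≤ r.pb; rw [o.pb]; omega
  · change Q * (G.n + 2) + 2 ≤ r.cb
    have h1 : Q * (G.n + 2) ≤ (N + 2) * (4 * (N + 2)) := Nat.mul_le_mul (by omega) (by omega)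
    have h2 := h.xs 2 3
    have h3 : (N + 2) * (4 * (N + 2)) = 4 * (N + 2) ^ 2 := by ring
    rw [o.cb]; omega
  · change 1000 * r.s0 * (r.pb + r.cb) * (3 * G.n + 4) ≤ r.s0 * r.Λ
    rw [o.pb, o.cb, o.Λ]
    have h1 : (N + 2) ^ 2 ≤ (N + 2) ^ 3 := xpow_mono N (by norm_num)
    have h2 := h.xs 4 5
    have h3 : (N + 2) ^ 5 ≤ (N + 2) ^ 6 := xpow_mono N (by norm_num)
    calc _ ≤ 1000 * r.s0 * (2 * (N + 2) ^ 3) * (12 * (N + 2)) :=
          Nat.mul_le_mul (Nat.mul_le_mul_left _ (by omega)) (by omega)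
      _ = r.s0 * (24000 * (N + 2) ^ 4) := by ring
      _ ≤ _ := Nat.mul_le_mul_left _ (by omega)
  · change 100 * (G.n + 1) * (2 ^ kb + r.D) ≤ r.W * r.D
    have h1 : N * Q + 1 ≤ (N + 2) ^ 2 := by nlinarith
    have h2 : 2 ^ kb + r.D ≤ (N + 2) ^ 2 * r.D :=
      le_trans (by rw [add_mul, one_mul]; omega) (Nat.mul_le_mul_right _ h1)
    have h3 := h.xs 3 4
    calc _ ≤ 100 * (4 * (N + 2)) * ((N + 2) ^ 2 * r.D) :=
          Nat.mul_le_mul (Nat.mul_le_mul_left _ (by omega)) h2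
      _ = 400 * (N + 2) ^ 3 * r.D := by ring
      _ ≤ _ := Nat.mul_le_mul_right _ (by rw [o.W]; omega)
  · change 64 * (G.n + 1) < 2 ^ (Nat.log 2 N + 10)
    have := x_le_two_pow N
    rw [show Nat.log 2 N + 10 = Nat.log 2 N + 2 + 8 from rfl, pow_add _ _ 8]; omega
  · change 4000 * (Nat.log 2 N + 10 + 5) ≤ Q; omega
  · have h1 := cx_Lg (run := run) (G := G) (g := g) (Sh := Sh) (I := I) (Φ := Φ) (kb := kb) o h
    have h2 : (2 : ℝ) ^ 56 ≤ Q := by exact_mod_cast hq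
    change 100 * (_ + 1) ≤ (Q : ℝ)
    linarith
  · change (r.W * r.D * (r.W * r.D) * Q * 2 ^ 40) ^ 2 ≤ g.X
    have h1 : N + 2 ≤ (N + 2) ^ (c1 + 8) := Nat.le_self_pow (by omega) _
    refine le_trans ?_ hX
    rw [mul_comm 36, pow_mul, show 36 = 18 * 2 from rfl, pow_mul]
    exact Nat.pow_le_pow_left (Raw.mul_le1 (Raw.mul_le1 (Raw.mul_pow_le o.le.Mu o.le.Mu)
      (by omega)) (by omega)) 2
  · change (icF N Q).AP + 1000 * (Q + 1004 + (icF N Q).AQ + 1000 + 1) *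
      (Nat.log 2 N + 10 + 5) ^ 2 ≤ Q ^ 6
    have h1 := h.AP; have h2 := h.AQ; have h3 := h.up1 2; have h4 := h.up 4 5
    have h5 := h.up 5 6
    have h6 : 1000 * (Q + 1004 + (icF N Q).AQ + 1000 + 1) * (Nat.log 2 N + 10 + 5) ^ 2 ≤
        1000 * (7 * Q ^ 2) * Q ^ 2 := Nat.mul_le_mul (Nat.mul_le_mul_left _ (by omega)) (Nat.pow_le_pow_left (by omega) 2)
    have h7 : 1000 * (7 * Q ^ 2) * Q ^ 2 = 7000 * Q ^ 4 := by ring
    omega
  · change 100 * (G.n + 1) ≤ N * Q ^ 5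
    have h1 : Q ^ 1 ≤ Q ^ 5 := h.mono (by norm_num)
    rw [pow_one] at h1
    exact le_trans (by omega) (Nat.mul_le_mul_left N (le_trans (by omega : 1000 ≤ Q) h1))
  · change 1000 * (Nat.log 2 N + 10 + 5) ^ 2 * (G.n + 1) ≤ (N + 2) ^ 3
    have h1 : (Nat.log 2 N + 10 + 5) ^ 2 ≤ Q ^ 2 := Nat.pow_le_pow_left (by omega) 2
    have h2 := h.le_N (i := 2) (by norm_num)
    have h3 := h.xs 2 3
    calc _ ≤ 1000 * (N + 2) * (4 * (N + 2)) :=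
          Nat.mul_le_mul (Nat.mul_le_mul_left _ (by omega)) (by omega)
      _ = 4000 * (N + 2) ^ 2 := by ring
      _ ≤ _ := by omega

end cx

theorem rawOk (h : Big c1 N Q) : RawOk c1 N Q (rawF c1 N Q (FF N Q)) :=
  ⟨rawF_pos h.pos, rawF_le (by have := h.q; omega) (h.le_N (by norm_num))
    (h.FF_le.trans (xpow_mono N (by norm_num))), rfl, rfl, rfl, rfl, rfl, rfl⟩

/-- the program for `cf` -/
def cfR (r : Raw) (P : Pm) (N Q kb : ℕ) : R Cf := do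
  let B ← powR 2 kb
  let M ← nat (r.W * P.D)
  let l ← lg2 N
  let nu ← nat (Q * (B / P.D + 1))
  let f ← nat ((N + 2) ^ 3)
  pure ⟨Q, 2 ^ 40, B, kb, M, P.s0, l + 10, nu, kb + 8, nu, Q, f⟩

theorem RawOk.bb_le (_ : RawOk c1 N Q r) (k2 : 2 ^ kb ≤ N * Q * r.D) : bb r kb ≤ N * Q + 1 :=
  Nat.succ_le_succ (Nat.div_le_of_le_mul (by rwa [mul_comm r.D]))

theorem RawOk.B_le (o : RawOk c1 N Q r) (h : Big c1 N Q) (k2 : 2 ^ kb ≤ N * Q * r.D) :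
    2 ^ kb ≤ r.W * r.D := by
  refine k2.trans (Nat.mul_le_mul_right _ ?_)
  have := h.QN
  rw [o.W]
  exact le_trans (by nlinarith) (xpow_mono N (by norm_num : 2 ≤ 4))

theorem RawOk.kb_le (o : RawOk c1 N Q r) (h : Big c1 N Q) (k2 : 2 ^ kb ≤ N * Q * r.D) :
    2 ^ 49 * kb ≤ Q := by
  have h1 := (Nat.pow_le_pow_iff_right (by norm_num)).1 ((o.B_le h k2).trans o.Mu_le)
  have := h.lc
  omega

theorem sp_cfR {g : Gl} (o : RawOk c1 N Q r) (h : Big c1 N Q)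
    (hX : (N + 2) ^ (36 * (c1 + 8)) ≤ g.X) (k2 : 2 ^ kb ≤ N * Q * r.D) :
    Sp g (cfR r r.P N Q kb) fun C t => C = cf r N Q kb ∧ t ≤ FF N Q := by
  have hM : r.W * r.D ≤ g.X := by
    refine o.le.Mu.trans (le_trans ?_ hX)
    rw [← pow_mul]; exact xpow_mono N (by omega)
  have h3 : (N + 2) ^ 3 ≤ g.X := (xpow_mono N (by omega)).trans hX
  have hb := o.bb_le k2
  have := h.QN; have := h.l1; have := o.kb_le h k2
  refine (sp_powR one_le_two ((o.B_le h k2).trans hM)).bind ?_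
  rintro _ t ⟨rfl, e⟩
  refine sp_bind.2 (sp_nat.2 ⟨hM, (sp_lg2 N).bind ?_⟩)
  rintro _ t' ⟨rfl, e'⟩
  simp only [sp_bind, sp_nat, sp_pure]
  refine ⟨le_trans ?_ h3, h3, rfl, ?_⟩
  · refine (Nat.mul_le_mul_left _ hb).trans ?_
    calc Q * (N * Q + 1) ≤ (N + 2) * ((N + 2) * (N + 2)) :=
          Nat.mul_le_mul (by omega) (by nlinarith)
      _ = _ := by ring
  · have h4 : N * 1 ≤ FF N Q := Nat.mul_le_mul_left _ (Nat.one_le_pow _ _ h.pos)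
    omega

end Crest.Agent.N325.Fin
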