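import Crest.Agent.N325.M0.Std2
import Crest.Agent.N325.M0.Tac
import Crest.Agent.N325.Tw.BotImpl
import Crest.Agent.N325.Mt.Search

/-!
# Row 325 (helper57): the seams of the final assembly

`N` = size of the input, `Q` = one number `N ^ o(1)` that bounds all losses.
-/

set_option autoImplicit false

namespace Crest.Agent.N325.Fin

open Filter Tw Mt

/-- the programs of an oracle: parameters `(h, θ, κ)` -/
abbrev Run (T : Type) : Type := ℕ × ℕ × ℕ → Cmd × T → R (T × Rep × Bool)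

/-- the canonical constants of the oracle -/
def kO (c0 N Q θ κ : ℕ) : TC :=
  { c := ⟨128 * (N + 1), (N + 2) ^ c0, (N + 2) ^ c0, (N + 2) ^ c0⟩
    th := Q, ψ := 1, er := θ * Q, rp := (θ + κ) * Q, wt := 1, cc := 2
    AU := Q, AS := (κ / θ + 1) * Q, AD := N * Q, AR := N * Q }

/-- **seam (O)**: the oracle for graphs whose numbers are at most `(N + 2) ^ c0` -/
def OracleStmt : Prop :=
  ∀ c0 : ℕ, ∃ (T : Type) (_ : Rp T) (mk : ℕ → R (ℕ × T)) (run : Run T) (c1 : ℕ) (G : ℕ → ℕ),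
    Impl mk ∧ (Impl fun p : (ℕ × ℕ × ℕ) × Cmd × T => run p.1 p.2) ∧ SubQ G ∧
    ∀ᶠ N : ℕ in atTop, ∀ (g : Gl) (Q θ κ : ℕ), G N ≤ Q → 1 ≤ θ → θ ≤ κ → (N + 2) ^ c1 ≤ κ →
      κ * (N + 2) ^ c1 ≤ g.X → ∃ (h : ℕ) (Sh : T → Prop) (I : T → Gr → (ℕ → ℤ) → Prop)
        (Ψ : T → ℕ), (Sp g (mk N) fun r t => r.1 = h ∧ Sh r.2 ∧ t ≤ N * Q) ∧
          TowerSpec g θ κ (run (h, θ, κ)) (kO c0 N Q θ κ) Sh I Ψ

/-- graphs of maximum degree three on `range n` -/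
structure Cub (n : ℕ) (E : ℕ → ℕ → Prop) (adj : Arr (List ℕ)) : Prop where
  symm : ∀ a b, E a b → E b a
  irr : ∀ a, ¬E a a
  lt : ∀ a b, E a b → a < n ∧ b < n
  ad : Adj (Finset.range n) E adj
  nd : ∀ v, (adj.get v).Nodup
  deg : ∀ v, (adj.get v).length ≤ 3

/-- **seam (P)**: matching in graphs of degree three on top of an oracle; the input of `alg` is
`(N, Q, h, t, n, adj)` -/
def MatchStmt : Prop :=
  ∃ c0 : ℕ, ∀ (c1 : ℕ) (T : Type) [Rp T] (run : Run T),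
    (Impl fun p : (ℕ × ℕ × ℕ) × Cmd × T => run p.1 p.2) →
    ∃ (alg : ℕ × ℕ × ℕ × T × ℕ × Arr (List ℕ) → R (Arr ℕ)) (θ κ : ℕ → ℕ → ℕ) (c2 e : ℕ),
      Impl alg ∧ ∀ᶠ N : ℕ in atTop, ∀ Q : ℕ, (Nat.log 2 N + 2) ^ e ≤ Q → Q ^ e ≤ N →
        1 ≤ θ N Q ∧ θ N Q ≤ κ N Q ∧ (N + 2) ^ c1 ≤ κ N Q ∧ κ N Q ≤ (N + 2) ^ c2 ∧
        ∀ (g : Gl) (h : ℕ) (Sh : T → Prop) (I : T → Gr → (ℕ → ℤ) → Prop) (Ψ : T → ℕ) (t0 : T)
          (n : ℕ) (E : ℕ → ℕ → Prop) (adj : Arr (List ℕ)), (N + 2) ^ c2 ≤ g.X →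
          1 / ((N : ℝ) + 2) ^ 3 ≤ g.d → g.d < 1 →
          TowerSpec g (θ N Q) (κ N Q) (run (h, θ N Q, κ N Q)) (kO c0 N Q (θ N Q) (κ N Q)) Sh I Ψ →
          Sh t0 → n ≤ 4 * N + 4 → Cub n E adj →
          Sp g (alg (N, Q, h, t0, n, adj)) fun m t => IsM (Finset.range n) E m.get ∧
            (∀ m', IsM (Finset.range n) E m' →
              ex (Finset.range n) m.get ≤ ex (Finset.range n) m' + 2 * Q) ∧ t ≤ N * Q ^ e

end Crest.Agent.N325.Fin
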