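import Crest.Agent.N325.Fin.Nm
import Crest.Agent.N325.Wk.Inst
import Crest.Agent.N325.P2.Dual2

/-!
# Row 325 (helper29): the numeric side conditions of the walks and of the EDGE event
-/

set_option autoImplicit false

namespace Crest.Agent.N325.P2.Cx

variable {T : Type}

/-- bound on the weight of one path -/
def Wb (X : Cx T) : ℕ := X.bb * X.C.Z ^ 3

variable {X : Cx T} {N : ℕ}

namespace Val
variable (v : X.Val N)
include v

theorem lt (a i j : ℕ) (k : i < j := by norm_num) : 2 ^ 70 * (a * X.C.Z ^ i) ≤ a * X.C.Z ^ j :=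
  (v.up a i).trans (v.mono a k)

theorem PhB (h : X.Ok) {a : ℕ} (k : a * 2 ^ 40 ≤ X.C.Z) :
    a * X.C.Ph * X.C.B ≤ X.C.Z * X.bb * X.P.D := by
  rw [v.Ph, mul_assoc X.C.Z]; exact Nat.mul_le_mul k h.B_lt.le

theorem kb_le (h : X.Ok) : 2 ^ 70 * X.C.kb ≤ X.C.Z := by
  obtain ⟨l, a, b⟩ := v.lg
  have c := h.BD_le
  have d : 2 ^ X.C.kb < 2 ^ l := by rw [← h.B.1]; omega
  have := (Nat.pow_lt_pow_iff_right one_lt_two).1 d
  omega

theorem Wb_le (h : X.Ok) : X.Wb ≤ 2 * (N * X.C.Z ^ 4) := v.zb_le h 3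

/-- surplus and light classes -/
theorem sur (h : X.Ok) : X.SurStmt (X.bb * X.C.Z) := fun s N' i g => ⟨i.surplus h g, fun c k => by
  have := v.Z_ge
  refine Nat.le_of_mul_le_mul_right ((i.cls_wt h g k).trans ?_) h.D_pos
  rw [mul_comm X.bb]; exact v.PhB h (by omega)⟩

/-- the numeric conditions of the walks -/
theorem wk (h : X.Ok) : X.WkNum X.Wb := by
  obtain ⟨l, a, b⟩ := v.lg
  have hZ := v.Z_ge
  have hN := v.N_ge
  refine ⟨⟨l, le_trans ?_ a.le, by omega, ?_⟩, ?_, v.d1, le_trans ?_ v.d0, ?_⟩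
  · refine le_trans ?_ h.M
    have c : 1 ≤ X.C.B := h.B.1 ▸ Nat.one_le_two_pow
    calc _ ≤ (X.G.n + 1) * X.C.B := by rw [add_mul]; omega
      _ ≤ _ := Nat.mul_le_mul (by omega) (by omega)
  · rw [v.ts]; exact v.PhB h (by omega)
  · rw [v.nu]; exact v.PhB h (by omega)
  · have c1 := v.Wb_le h
    have c2 := v.nz_le (i := 4) (by omega)
    have c3 : 1 ≤ N * X.C.Z ^ 4 := Nat.mul_pos (by omega) (Nat.pow_pos (by omega))
    have c4 : (N + 2) ^ 3 ≤ 2 ^ l :=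
      ((Nat.pow_le_pow_right (by omega) (by omega)).trans v.NM).trans a.le
    have c5 : (X.Wb + 1) * (N + 2) ^ 3 ≤ 2 ^ X.C.Z :=
      calc _ ≤ 2 ^ l * 2 ^ l := Nat.mul_le_mul (by omega) c4
        _ = 2 ^ (l + l) := (pow_add _ _ _).symm
        _ ≤ _ := Nat.pow_le_pow_right two_pos (by omega)
    rw [v.L, one_div_pow, mul_one_div, div_le_div_iff₀ (by positivity) (by positivity), one_mul]
    exact_mod_cast c5
  · have c0 := h.bb_ge
    have c1 := v.kb_le h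
    have c2 : X.C.Z ≤ X.C.Z * X.bb := Nat.le_mul_of_pos_right _ (by omega)
    have c3 : (X.C.ts + 1) * X.C.kb ≤ 2 * (X.C.Z * X.bb) * X.C.Z := by
      rw [v.ts]; exact Nat.mul_le_mul (by omega) (by omega)
    have c4 : X.C.Z * X.bb ≤ X.C.Z * X.bb * X.C.Z := Nat.le_mul_of_pos_right _ (by omega)
    have c5 := v.nz_le (i := 4) (by omega)
    have c6 := v.N3_le h
    have c7 : _ ≤ 2 * (N * X.C.Z ^ 4) := v.zb_le h 3
    rw [mul_assoc] at c3
    calc _ ≤ 2 * X.C.Z * (3 * (X.C.Z * X.bb * X.C.Z)) :=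
          Nat.mul_le_mul (by rw [v.L]; omega) (by omega)
      _ = 6 * (X.bb * X.C.Z ^ 3) := by ring
      _ ≤ _ := by omega

theorem wkA_le (h : X.Ok) : X.wkA X.Wb ≤ 2 * (X.bb * X.C.Z ^ 4) := by
  have hZ := v.Z_ge
  have c0 := h.bb_ge
  have c1 := v.kb_le h
  have c2 : X.C.Z ≤ X.C.Z * X.bb := Nat.le_mul_of_pos_right _ (by omega)
  have c3 : X.C.Z * (X.C.Z * X.bb) * (2 * X.k.AU) ≤ 4 * (X.bb * X.C.Z ^ 3) :=
    (Nat.mul_le_mul_left _ (Nat.mul_le_mul_left 2 v.AU_le)).trans_eq (by ring)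
  have c4 : X.C.Z * ((X.C.Z * X.bb + 1) * (10 * X.C.kb + 27)) ≤ 2 * (X.bb * X.C.Z ^ 3) :=
    (Nat.mul_le_mul_left _ (Nat.mul_le_mul (show _ ≤ 2 * (X.C.Z * X.bb) by omega)
      (show _ ≤ X.C.Z by omega))).trans_eq (by ring)
  have c5 : X.C.Z * (X.bb * X.C.Z ^ 3) = X.bb * X.C.Z ^ 4 := by ring
  have c6 := v.lt X.bb 3 4
  have c7 : 1 ≤ X.bb * X.C.Z ^ 3 := Nat.mul_pos (by omega) (Nat.pow_pos (by omega))
  rw [wkA, v.L, v.ts, Wb, mul_add X.C.Z]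
  omega

/-- the numeric conditions of EDGE -/
theorem edge (h : X.Ok) {A : ℕ} (hA : A ≤ 2 ^ 60 * (X.bb * X.C.Z ^ 4)) :
    X.EdgeNum X.C.ts X.Wb A (X.bb * X.C.Z) X.Wb := by
  have hZ := v.Z_ge
  have hN := v.N_ge
  have c0 := h.bb_ge
  have c1 := v.Wb_le h
  refine ⟨?_, le_rfl, ?_, ?_, ?_⟩
  · have d1 := v.lt X.bb 1 2
    have d2 := v.lt X.bb 2 3
    have d3 : X.C.Z * (X.C.Z * X.bb) = X.bb * X.C.Z ^ 2 := by ring
    rw [pow_one] at d1
    rw [v.nu, v.L, v.ts, Wb, d3, mul_comm X.C.Z]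
    omega
  · have d1 := v.nz_le (i := 4) (by omega)
    have d2 := v.N3_le h
    have d3 : 1 ≤ N * X.C.Z ^ 4 := Nat.mul_pos (by omega) (Nat.pow_pos (by omega))
    omega
  · have d1 : _ ≤ 2 * (N * X.C.Z ^ 5) := v.zb_le h 4
    have d2 := v.lt N 4 5
    have d3 := v.mono N (i := 0) (j := 4) (by omega)
    have d4 := v.n_le
    rw [pow_zero] at d3
    have d5 : 100 * (2 * X.Wb + X.G.n + 1) * (2 * X.k.AU) ≤ N * X.C.Z ^ 5 * X.k.AU := by
      rw [← mul_assoc]; exact Nat.mul_le_mul_right _ (by omega)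
    have d6 : N * X.C.Z ^ 5 * 2 ^ 70 ≤ N * X.C.Z ^ 5 * X.k.AU :=
      Nat.mul_le_mul_left _ (by have := v.AU; omega)
    rw [v.Rm, mul_left_comm (N * _)]
    omega
  · have d1 := v.mono X.bb (i := 3) (j := 6) (by omega)
    have d2 := v.lt X.bb 4 6
    have d4 := v.mono X.bb (i := 1) (j := 6) (by omega)
    have d5 := v.lt X.bb 6 14
    have d7 : X.C.Z ≤ X.bb * X.C.Z := Nat.le_mul_of_pos_left _ (by omega)
    have d8 : X.C.Z ^ 6 ≤ X.bb * X.C.Z ^ 6 := Nat.le_mul_of_pos_left _ (by omega)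
    have d9 : X.C.Z ^ 6 * (X.C.Z ^ 8 * X.bb) = X.bb * X.C.Z ^ 14 := by ring
    rw [pow_one] at d4
    rw [v.κ, v.Au, v.L, d9, Wb]
    omega

theorem aug2 (h : X.Ok) : X.AugNum (2 * X.Wb) :=
  v.aug h (by have := v.lt X.bb 3 4; rw [Wb]; omega)

/-- **EDGE** from MERGE and AUGMENT -/
theorem edgeSpec (h : X.Ok) {mg : S T → List ℕ → List ℕ → ℕ → List ℕ → R (S T)}
    {ag : S T → ℕ → List ℕ → ℕ × List (ℕ × ℕ) → ℕ × List (ℕ × ℕ) → R (S T)}
    (hm : X.MergeSpec mg) (ha : X.AugSpec (2 * X.Wb) ag) :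
    X.EdgeSpec (edgeE X.toEnv mg ag (wkE X.toEnv)) :=
  edgeSpec_of h hm ha (wkStmt h (v.wk h)) (v.sur h)
    (v.edge h (by have := v.wkA_le h; omega))

end Val

end Crest.Agent.N325.P2.Cx
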