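import Crest.Agent.N325.Fin.Core
import Crest.Agent.N325.Fin.Nm2
import Crest.Agent.N325.P2.DropI
import Crest.Agent.N325.P2.DropF
import Crest.Agent.N325.P2.Ins2
import Crest.Agent.N325.P2.End
import Crest.Agent.N325.Bl.Unl
import Crest.Agent.N325.Ag.Fold
import Crest.Agent.N325.Ag.RotF
import Crest.Agent.N325.Wk.InstI

/-!
# Row 325 (helper57): seam (E) from FINAL
-/

set_option autoImplicit false

namespace Crest.Agent.N325.Fin

open Filter Tw Mt Ip P2

theorem i_ini {T : Type} [Rp T] : Impl fun p : Env T × T × Arr ℕ => ini p.1 p.2.1 p.2.2 := by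
  unfold ini iniO iniD; impl

theorem ev_of
    (hf : ∀ (T : Type) [Rp T], ∃ fin : Env T → S T → ℕ → R (S T),
      (Impl fun p : Env T × S T × ℕ => fin p.1 p.2.1 p.2.2) ∧
        ∀ X : Cx T, X.Ok → X.FinSpec (fin X.toEnv)) : EvStmt := by
  intro T _
  obtain ⟨fin, f1, f2⟩ := hf T
  exact ⟨labEv, fun E => Bl.unl (dropE E) E, insEv,
    fun E => edgeE E (merge E) (aug (rot E) (fin E)) (wkE E), ini,
    impl_phaseE impl_labEv (Bl.impl_unl impl_dropE) impl_insEv
      (impl_edgeE (ag := fun E => aug (rot E) (fin E)) impl_merge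
        (impl_aug impl_rot f1 (by impl) (by impl) (by impl) (by impl) (by impl)) impl_wkE) i_ini,
    fun X N h v => ⟨Cx.labelSpec h, Bl.unlabSpec h (Cx.dropSpec h), Cx.insSpec h,
      v.edgeSpec h (Cx.mergeSpec h) (Cx.augSpec h (Cx.rotSpec h) (f2 X h) (v.aug2 h)),
      Cx.initSpec h v.hF, Cx.endSpec h (by norm_num)⟩⟩

end Crest.Agent.N325.Fin
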