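import Crest.Agent.N325.Fin.Or0
import Crest.Agent.N325.Sg.Pk

/-! # Row 325 (helper30): the parameters of the oracle form a family -/

set_option autoImplicit false

namespace Crest.Agent.N325.Fin

open Sg

theorem r_eq (c N : ℕ) : Pk.r N = rO c N := rfl

theorem two_K_le (c N : ℕ) : 2 * Pk.K c N ≤ Pk.r N ^ 1 * Pk.q2 c N := by
  have := two_le_rt (lev N) (Pk.mm N)
  rw [Pk.K, Pk.K0, Pk.q2, pow_one, Pk.r]
  nlinarith [Nat.zero_le ((Pk.lg c N + 2) * Pk.k0 c N)]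

theorem fam (c : ℕ) : Fam c (Pk.tp c) where
  L _ := rfl
  r _ := rfl
  ψ _ := rfl
  wt _ := rfl
  cc _ := rfl
  nb _ := le_rfl
  lb _ := le_rfl
  gb _ := le_rfl
  lbP := by simp only [Pk.tp]; fun_prop
  gbP := by simp only [Pk.tp]; fun_prop
  RU1 N := by simp only [Pk.tp, Pk.RU, Pk.fRU]; omega
  ql1 N := by simp only [Pk.tp, Pk.K]; omega
  RU := Pk.sl_RU c
  ρ := Pk.sl_ρ c
  A := Pk.sl_A c
  K := Pk.sq_K c
  TU := (Pk.sq_T c).1
  Tb := (Pk.sq_T c).2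
  ql := (PolyB.fac_pow_lev (G := Pk.mm) (by unfold Pk.mm; fun_prop) (Pk.sl_q2 c) 1).mono fun N =>
    Nat.pow_le_pow_left (two_K_le c N) _

end Crest.Agent.N325.Fin
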