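import Crest.Agent.N325.Fin.Defs
import Crest.Agent.N325.Ip.Top

/-!
# N325 / Fin (helper34): the flow layer on the canonical oracle
-/

set_option autoImplicit false

namespace Crest.Agent.N325.Fin

open Tw Ip

/-- the raw scales -/
def raw (c1 N Q : ℕ) : Raw :=
  ⟨Q, 1, Q, 3 * Q, (N + 2) ^ c1, (N + 2) ^ 4, (N + 2) ^ 3, (N + 2) ^ 2, (N + 2) ^ 3, (N + 2) ^ 6,
    (N + 2) ^ (c1 + 8) + 1⟩

/-- the constants of the flow layer -/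
def icF (N Q : ℕ) : IC := icOf 1000 Q ((4 * Q + 1) * Q) (N * Q) Q

theorem Raw_lb_eq {r : Raw} (p : r.Pos) : r.lb = r.Gl * r.cb * (r.F + 1) ^ 2 * r.Λ + 3 := by
  change r.Gl * r.cb * r.s0 * r.D / (r.sm * r.sm) + 3 = _
  have e : r.Gl * r.cb * r.s0 * r.D = r.Gl * r.cb * (r.F + 1) ^ 2 * r.Λ * (r.sm * r.sm) := by
    unfold Raw.D Raw.s0; ring
  rw [e, Nat.mul_div_cancel _ (Nat.mul_pos p.sm p.sm)]

theorem Raw_gb_eq {r : Raw} (p : r.Pos) :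
    r.gb = 40 * r.th * r.Gl * (r.pb + r.cb * (r.F + 1) ^ 2 * r.Λ) := by
  change 40 * r.th * r.Gl * r.pb + 40 * r.th * r.Gl * r.cb * r.s0 * r.D / (r.sm * r.sm) = _
  have e : 40 * r.th * r.Gl * r.cb * r.s0 * r.D =
      40 * r.th * r.Gl * r.cb * (r.F + 1) ^ 2 * r.Λ * (r.sm * r.sm) := by
    unfold Raw.D Raw.s0; ring
  rw [e, Nat.mul_div_cancel _ (Nat.mul_pos p.sm p.sm)]; ring

variable {c1 N Q : ℕ}

theorem xpow_mono (N : ℕ) {i j : ℕ} (h : i ≤ j) : (N + 2) ^ i ≤ (N + 2) ^ j :=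
  Nat.pow_le_pow_right (by omega) h

theorem xpow_pos (N i : ℕ) : 1 ≤ (N + 2) ^ i := Nat.one_le_pow _ _ (by omega)

theorem q_pows (hQ : 2 ^ 50 ≤ Q) (hN : Q ^ 4 ≤ N) :
    2 ^ 50 * Q ≤ Q ^ 2 ∧ 2 ^ 50 * Q ^ 2 ≤ Q ^ 3 ∧ 2 ^ 50 * Q ^ 3 ≤ N := by
  refine ⟨?_, ?_, le_trans ?_ hN⟩
  · rw [sq]; exact Nat.mul_le_mul_right _ hQ
  · rw [pow_succ' Q 2]; exact Nat.mul_le_mul_right _ hQ
  · rw [pow_succ' Q 3]; exact Nat.mul_le_mul_right _ hQ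

theorem raw_pos (hQ : 1 ≤ Q) : (raw c1 N Q).Pos :=
  ⟨le_rfl, hQ, by change 1 ≤ 3 * Q; omega, xpow_pos _ _, xpow_pos _ _, xpow_pos _ _, xpow_pos _ _⟩

theorem raw_le (hQ : 2 ^ 50 ≤ Q) (hN : Q ^ 4 ≤ N) : (raw c1 N Q).Le ((N + 2) ^ (c1 + 8)) := by
  obtain ⟨q2, q3, q4⟩ := q_pows hQ hN
  have h1 : (N + 2) ^ 1 ≤ (N + 2) ^ (c1 + 8) := xpow_mono N (by omega)
  have h4 : (N + 2) ^ 4 ≤ (N + 2) ^ (c1 + 8) := xpow_mono N (by omega)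
  have h3 : (N + 2) ^ 3 * 2 ≤ (N + 2) ^ 4 := by
    rw [pow_succ _ 3]; exact Nat.mul_le_mul_left _ (by omega)
  have := xpow_pos N 3
  rw [pow_one] at h1
  exact ⟨by omega, by change Q ≤ _; omega, by change Q + 3 * Q ≤ _; omega, xpow_mono N (by omega),
    h4, xpow_mono N (by omega), xpow_mono N (by omega), by change (N + 2) ^ 3 + 1 ≤ _; omega,
    xpow_mono N (by omega)⟩

theorem raw_div (hQ : 1 ≤ Q) : (raw c1 N Q).κ / (raw c1 N Q).θ = 4 * Q := by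
  rw [Raw.κ, Nat.mul_div_cancel _ (raw_pos hQ).θ]
  change Q + 3 * Q = _
  ring

theorem raw_Gl (hQ : 2 ^ 50 ≤ Q) (hN : Q ^ 4 ≤ N) :
    40 * Q * (raw c1 N Q).Gl ≤ (N + 2) ^ 5 := by
  obtain ⟨q2, q3, q4⟩ := q_pows hQ hN
  change 40 * Q * (4000 * Q * (Q + 3 * Q) * (N + 2) ^ 4) ≤ _
  calc 40 * Q * (4000 * Q * (Q + 3 * Q) * (N + 2) ^ 4) = 640000 * Q ^ 3 * (N + 2) ^ 4 := by ring
    _ ≤ (N + 2) * (N + 2) ^ 4 := Nat.mul_le_mul_right _ (by omega)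
    _ = _ := by ring

theorem raw_mid (N : ℕ) : (N + 2) ^ 3 * ((N + 2) ^ 3 + 1) ^ 2 * (N + 2) ^ 6 ≤ (N + 2) ^ 17 := by
  have h3 : (N + 2) ^ 3 * 2 ≤ (N + 2) ^ 4 := by
    rw [pow_succ _ 3]; exact Nat.mul_le_mul_left _ (by omega)
  have := xpow_pos N 3
  calc (N + 2) ^ 3 * ((N + 2) ^ 3 + 1) ^ 2 * (N + 2) ^ 6
      ≤ (N + 2) ^ 3 * ((N + 2) ^ 4) ^ 2 * (N + 2) ^ 6 :=
        Nat.mul_le_mul_right _ (Nat.mul_le_mul_left _ (Nat.pow_le_pow_left (by omega) 2))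
    _ = _ := by ring

theorem two_xpow (N i : ℕ) : 2 * (N + 2) ^ i ≤ (N + 2) ^ (i + 1) := by
  rw [pow_succ']; exact Nat.mul_le_mul_right _ (by omega)

theorem raw_lb (hQ : 2 ^ 50 ≤ Q) (hN : Q ^ 4 ≤ N) : (raw c1 N Q).lb ≤ (N + 2) ^ 40 := by
  have p : (raw c1 N Q).Pos := raw_pos (by omega)
  have h1 := raw_Gl (c1 := c1) hQ hN
  have h2 : 1 * (raw c1 N Q).Gl ≤ 40 * Q * (raw c1 N Q).Gl := Nat.mul_le_mul_right _ (by omega)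
  have h3 := Nat.mul_le_mul ((one_mul _).ge.trans (h2.trans h1)) (raw_mid N)
  have h4 : 2 * (N + 2) ^ 22 ≤ (N + 2) ^ 23 := two_xpow N 22
  have h5 : (N + 2) ^ 2 ≤ (N + 2) ^ 22 := xpow_mono N (by omega)
  have h6 : (N + 2) ^ 23 ≤ (N + 2) ^ 40 := xpow_mono N (by omega)
  have h7 : 2 ^ 2 ≤ (N + 2) ^ 2 := Nat.pow_le_pow_left (by omega) 2
  rw [← pow_add, ← mul_assoc, ← mul_assoc, show 5 + 17 = 22 from rfl] at h3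
  rw [Raw_lb_eq p]
  change (raw c1 N Q).Gl * (N + 2) ^ 3 * ((N + 2) ^ 3 + 1) ^ 2 * (N + 2) ^ 6 + 3 ≤ _
  omega

theorem raw_gb (hQ : 2 ^ 50 ≤ Q) (hN : Q ^ 4 ≤ N) : (raw c1 N Q).gb ≤ (N + 2) ^ 40 := by
  have p : (raw c1 N Q).Pos := raw_pos (by omega)
  have h1 := raw_Gl (c1 := c1) hQ hN
  have h2 := raw_mid N
  have h4 : 2 * (N + 2) ^ 17 ≤ (N + 2) ^ 18 := two_xpow N 17
  have h5 : (N + 2) ^ 2 ≤ (N + 2) ^ 17 := xpow_mono N (by omega)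
  rw [Raw_gb_eq p]
  change 40 * Q * (raw c1 N Q).Gl *
    ((N + 2) ^ 2 + (N + 2) ^ 3 * ((N + 2) ^ 3 + 1) ^ 2 * (N + 2) ^ 6) ≤ _
  calc _ ≤ (N + 2) ^ 5 * (N + 2) ^ 18 := Nat.mul_le_mul h1 (by omega)
    _ = (N + 2) ^ 23 := by ring
    _ ≤ _ := xpow_mono N (by omega)

theorem raw_κ_ge (hQ : 1 ≤ Q) : (N + 2) ^ c1 ≤ (raw c1 N Q).κ := by
  have p : (raw c1 N Q).Pos := raw_pos hQ
  refine le_trans (Nat.le_mul_of_pos_right _ ?_) p.Kb_lb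
  rw [Raw_lb_eq p]; omega

/-- **the flow layer on the canonical oracle** -/
theorem ip_kO (hQ : 2 ^ 50 ≤ Q) (hN : Q ^ 4 ≤ N) :
    (raw c1 N Q).Pos ∧ (raw c1 N Q).Le ((N + 2) ^ (c1 + 8)) ∧ 1 ≤ (raw c1 N Q).θ ∧
      (raw c1 N Q).θ ≤ (raw c1 N Q).κ ∧ (N + 2) ^ c1 ≤ (raw c1 N Q).κ ∧
      (raw c1 N Q).κ ≤ (N + 2) ^ (10 * (c1 + 8)) ∧
      ∀ (T : Type) (g : Gl) (run : Cmd × T → R (T × Rep × Bool)) (Sh : T → Prop)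
        (I : T → Gr → (ℕ → ℤ) → Prop) (Ψ : T → ℕ), (N + 2) ^ (13 * (c1 + 8)) ≤ g.X →
        TowerSpec g (raw c1 N Q).θ (raw c1 N Q).κ run
          (kO 40 N Q (raw c1 N Q).θ (raw c1 N Q).κ) Sh I Ψ →
        ∃ I' Φ, IpSpec g run (raw c1 N Q).P ((raw c1 N Q).B (128 * (N + 1)) (128 * (N + 1)))
          (icF N Q) Sh I' Φ := by
  obtain ⟨q2, q3, q4⟩ := q_pows hQ hN
  have p : (raw c1 N Q).Pos := raw_pos (by omega)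
  have l : (raw c1 N Q).Le ((N + 2) ^ (c1 + 8)) := raw_le hQ hN
  have hκ := l.κ p
  refine ⟨p, l, p.θ, p.θ_le_κ, raw_κ_ge (by omega), by rwa [← pow_mul, mul_comm] at hκ,
    fun T g run Sh I Ψ hX hT => ipTop hT p l (by rwa [← pow_mul, mul_comm]) ?_⟩
  have h1 : (N + 2) ^ 2 ≤ (N + 2) ^ 40 := xpow_mono N (by omega)
  have h2 : 128 * (N + 1) ≤ (N + 2) ^ 2 := by
    rw [sq]; exact Nat.mul_le_mul (by omega) (by omega)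
  have h3 : (N + 2) ^ 4 ≤ (N + 2) ^ (c1 + 8) := xpow_mono N (by omega)
  have h4 : 2 * (N + 2) ^ 3 ≤ (N + 2) ^ 4 := two_xpow N 3
  have h5 : (N + 2) ^ 1 ≤ (N + 2) ^ 3 := xpow_mono N (by omega)
  rw [pow_one] at h5
  refine ⟨le_rfl, h2.trans h1, h2.trans h1, raw_lb hQ hN, raw_gb hQ hN, le_rfl, le_rfl,
    (mul_one _).ge, (mul_comm _ _).le, ?_, by change 2 * Q + 4 + 1000 ≤ 1 * (3 * Q); omega, le_rfl,
    le_rfl, ?_, le_rfl, ?_, Nat.lt_succ_self _⟩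
  · change ((raw c1 N Q).θ + (raw c1 N Q).κ) * Q ≤ _
    have := p.θ_le_κ
    calc _ ≤ 2 * ((N + 2) ^ (c1 + 8)) ^ 10 * Q := Nat.mul_le_mul_right _ (by omega)
      _ = ((N + 2) ^ (c1 + 8)) ^ 10 * (2 * Q) := by ring
      _ ≤ _ := by rw [pow_succ _ 10]; exact Nat.mul_le_mul_left _ (by omega)
  · change ((raw c1 N Q).κ / (raw c1 N Q).θ + 1) * Q ≤ _
    rw [raw_div (by omega)]
  · change (N + 2) ^ 3 + 2 * (Q + (4 * Q + 1) * Q) + 10 ≤ _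
    have e : (4 * Q + 1) * Q = 4 * Q ^ 2 + Q := by ring
    omega

/-- program for `raw` -/
def rawR (c1 N Q : ℕ) : R Raw := do
  let q ← nat (3 * Q)
  let a ← nat ((N + 2) ^ c1)
  let x2 ← nat ((N + 2) ^ 2)
  let x3 ← nat ((N + 2) ^ 3)
  let x4 ← nat ((N + 2) ^ 4)
  let x6 ← nat ((N + 2) ^ 6)
  let y ← nat ((N + 2) ^ (c1 + 8))
  pure ⟨Q, 1, Q, q, a, x4, x3, x2, x3, x6, y + 1⟩

theorem sp_rawR {g : Gl} (hQ : 3 * Q ≤ g.X) (hX : (N + 2) ^ (c1 + 8) ≤ g.X) :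
    Sp g (rawR c1 N Q) fun r t => r = raw c1 N Q ∧ t = 0 := by
  simp only [rawR, sp_bind, sp_nat, sp_pure]
  exact ⟨hQ, (xpow_mono N (by omega)).trans hX, (xpow_mono N (by omega)).trans hX,
    (xpow_mono N (by omega)).trans hX, (xpow_mono N (by omega)).trans hX,
    (xpow_mono N (by omega)).trans hX, hX, rfl, trivial⟩

@[fun_prop] theorem impl_rawR {α : Type} [Rp α] (c1 : ℕ) {N Q : α → ℕ} (hN : Pu true N)
    (hQ : Pu true Q) : Impl fun a => rawR c1 (N a) (Q a) := by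
  unfold rawR; impl

end Crest.Agent.N325.Fin
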