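import Crest.Agent.N325.Fin.Ip0

/-!
# N325 / Fin (helper34): the flow layer on the canonical oracle, budget `F` as an argument
-/

set_option autoImplicit false

namespace Crest.Agent.N325.Fin

open Tw Ip

/-- the raw scales with the budget `F` -/
def rawF (c1 N Q F : ℕ) : Raw :=
  ⟨Q, 1, Q, 3 * Q, (N + 2) ^ c1, (N + 2) ^ 4, (N + 2) ^ 3, (N + 2) ^ 2, F, (N + 2) ^ 6,
    (N + 2) ^ (c1 + 8) + 1⟩

variable {c1 N Q F : ℕ}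

theorem raw_eq (c1 N Q : ℕ) : raw c1 N Q = rawF c1 N Q ((N + 2) ^ 3) := rfl

theorem rawF_pos (hQ : 1 ≤ Q) : (rawF c1 N Q F).Pos :=
  ⟨le_rfl, hQ, by change 1 ≤ 3 * Q; omega, xpow_pos _ _, xpow_pos _ _, xpow_pos _ _, xpow_pos _ _⟩

theorem rawF_le (hQ : 2 ^ 50 ≤ Q) (hN : Q ^ 4 ≤ N) (hF : F ≤ (N + 2) ^ 3) :
    (rawF c1 N Q F).Le ((N + 2) ^ (c1 + 8)) :=
  have l := raw_le (c1 := c1) hQ hN
  ⟨l.big, l.th, l.ρ, l.Kb, l.W, l.cb, l.pb, (Nat.add_le_add_right hF 1).trans l.F, l.Λ⟩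

theorem rawF_div (hQ : 1 ≤ Q) : (rawF c1 N Q F).κ / (rawF c1 N Q F).θ = 4 * Q := by
  rw [Raw.κ, Nat.mul_div_cancel _ (rawF_pos hQ).θ]
  change Q + 3 * Q = _
  ring

theorem rawF_lb (hQ : 2 ^ 50 ≤ Q) (hN : Q ^ 4 ≤ N) (hF : F ≤ (N + 2) ^ 3) :
    (rawF c1 N Q F).lb ≤ (N + 2) ^ 40 := by
  refine le_trans ?_ (raw_lb (c1 := c1) hQ hN)
  rw [Raw_lb_eq (rawF_pos (by omega)), Raw_lb_eq (raw_pos (by omega))]
  exact Nat.add_le_add_right (Nat.mul_le_mul_right _ (Nat.mul_le_mul_left _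
    (Nat.pow_le_pow_left (Nat.add_le_add_right hF 1) 2))) _

theorem rawF_gb (hQ : 2 ^ 50 ≤ Q) (hN : Q ^ 4 ≤ N) (hF : F ≤ (N + 2) ^ 3) :
    (rawF c1 N Q F).gb ≤ (N + 2) ^ 40 := by
  refine le_trans ?_ (raw_gb (c1 := c1) hQ hN)
  rw [Raw_gb_eq (rawF_pos (by omega)), Raw_gb_eq (raw_pos (by omega))]
  exact Nat.mul_le_mul_left _ (Nat.add_le_add_left (Nat.mul_le_mul_right _ (Nat.mul_le_mul_left _
    (Nat.pow_le_pow_left (Nat.add_le_add_right hF 1) 2))) _)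

theorem rawF_κ_ge (hQ : 1 ≤ Q) : (N + 2) ^ c1 ≤ (rawF c1 N Q F).κ := by
  have p : (rawF c1 N Q F).Pos := rawF_pos hQ
  refine le_trans (Nat.le_mul_of_pos_right _ ?_) p.Kb_lb
  rw [Raw_lb_eq p]; omega

/-- **the flow layer on the canonical oracle** -/
theorem ip_kF (hQ : 2 ^ 50 ≤ Q) (hN : Q ^ 4 ≤ N) (hF : F ≤ (N + 2) ^ 3) :
    (rawF c1 N Q F).Pos ∧ (rawF c1 N Q F).Le ((N + 2) ^ (c1 + 8)) ∧ 1 ≤ (rawF c1 N Q F).θ ∧
      (rawF c1 N Q F).θ ≤ (rawF c1 N Q F).κ ∧ (N + 2) ^ c1 ≤ (rawF c1 N Q F).κ ∧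
      (rawF c1 N Q F).κ ≤ (N + 2) ^ (10 * (c1 + 8)) ∧
      ∀ (T : Type) (g : Gl) (run : Cmd × T → R (T × Rep × Bool)) (Sh : T → Prop)
        (I : T → Gr → (ℕ → ℤ) → Prop) (Ψ : T → ℕ), (N + 2) ^ (13 * (c1 + 8)) ≤ g.X →
        TowerSpec g (rawF c1 N Q F).θ (rawF c1 N Q F).κ run
          (kO 40 N Q (rawF c1 N Q F).θ (rawF c1 N Q F).κ) Sh I Ψ →
        ∃ I' Φ, IpSpec g run (rawF c1 N Q F).P
          ((rawF c1 N Q F).B (128 * (N + 1)) (128 * (N + 1))) (icF N Q) Sh I' Φ := by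
  obtain ⟨q2, q3, q4⟩ := q_pows hQ hN
  have p : (rawF c1 N Q F).Pos := rawF_pos (by omega)
  have l : (rawF c1 N Q F).Le ((N + 2) ^ (c1 + 8)) := rawF_le hQ hN hF
  have hκ := l.κ p
  refine ⟨p, l, p.θ, p.θ_le_κ, rawF_κ_ge (by omega), by rwa [← pow_mul, mul_comm] at hκ,
    fun T g run Sh I Ψ hX hT => ipTop hT p l (by rwa [← pow_mul, mul_comm]) ?_⟩
  have h1 : (N + 2) ^ 2 ≤ (N + 2) ^ 40 := xpow_mono N (by omega)
  have h2 : 128 * (N + 1) ≤ (N + 2) ^ 2 := by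
    rw [sq]; exact Nat.mul_le_mul (by omega) (by omega)
  have h3 : (N + 2) ^ 4 ≤ (N + 2) ^ (c1 + 8) := xpow_mono N (by omega)
  have h4 : 2 * (N + 2) ^ 3 ≤ (N + 2) ^ 4 := two_xpow N 3
  have h5 : (N + 2) ^ 1 ≤ (N + 2) ^ 3 := xpow_mono N (by omega)
  rw [pow_one] at h5
  refine ⟨le_rfl, h2.trans h1, h2.trans h1, rawF_lb hQ hN hF, rawF_gb hQ hN hF, le_rfl, le_rfl,
    (mul_one _).ge, (mul_comm _ _).le, ?_, by change 2 * Q + 4 + 1000 ≤ 1 * (3 * Q); omega, le_rfl,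
    le_rfl, ?_, le_rfl, ?_, Nat.lt_succ_self _⟩
  · change ((rawF c1 N Q F).θ + (rawF c1 N Q F).κ) * Q ≤ _
    have := p.θ_le_κ
    calc _ ≤ 2 * ((N + 2) ^ (c1 + 8)) ^ 10 * Q := Nat.mul_le_mul_right _ (by omega)
      _ = ((N + 2) ^ (c1 + 8)) ^ 10 * (2 * Q) := by ring
      _ ≤ _ := by rw [pow_succ _ 10]; exact Nat.mul_le_mul_left _ (by omega)
  · change ((rawF c1 N Q F).κ / (rawF c1 N Q F).θ + 1) * Q ≤ _
    rw [rawF_div (by omega)]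
  · change F + 2 * (Q + (4 * Q + 1) * Q) + 10 ≤ _
    have e : (4 * Q + 1) * Q = 4 * Q ^ 2 + Q := by ring
    omega

/-- program for `rawF` -/
def rawFR (c1 N Q F : ℕ) : R Raw := do
  let q ← nat (3 * Q)
  let a ← nat ((N + 2) ^ c1)
  let x2 ← nat ((N + 2) ^ 2)
  let x3 ← nat ((N + 2) ^ 3)
  let x4 ← nat ((N + 2) ^ 4)
  let x6 ← nat ((N + 2) ^ 6)
  let y ← nat ((N + 2) ^ (c1 + 8))
  pure ⟨Q, 1, Q, q, a, x4, x3, x2, F, x6, y + 1⟩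

theorem sp_rawFR {g : Gl} (hQ : 3 * Q ≤ g.X) (hX : (N + 2) ^ (c1 + 8) ≤ g.X) :
    Sp g (rawFR c1 N Q F) fun r t => r = rawF c1 N Q F ∧ t = 0 := by
  simp only [rawFR, sp_bind, sp_nat, sp_pure]
  exact ⟨hQ, (xpow_mono N (by omega)).trans hX, (xpow_mono N (by omega)).trans hX,
    (xpow_mono N (by omega)).trans hX, (xpow_mono N (by omega)).trans hX,
    (xpow_mono N (by omega)).trans hX, hX, rfl, trivial⟩

@[fun_prop] theorem impl_rawFR {α : Type} [Rp α] (c1 : ℕ) {N Q F : α → ℕ} (hN : Pu true N)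
    (hQ : Pu true Q) (hF : Pu true F) : Impl fun a => rawFR c1 (N a) (Q a) (F a) := by
  unfold rawFR; impl

end Crest.Agent.N325.Fin
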