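import Crest.Agent.N325.Fin.Ip1
import Crest.Agent.N325.Ini.Init
import Crest.Agent.N325.P2.Rp

/-!
# Row 325 (helper57): seam (P) from the machine on the flow layer
-/

set_option autoImplicit false

namespace Crest.Agent.N325.Fin

open Filter Tw Mt Ip P2

/-- the type of the programs of an oracle -/
abbrev Rn (T : Type) : Type := Cmd × T → R (T × Rep × Bool)

/-- **seam (C)**: the machine on the flow layer; the input is `(run, P, G, N, Q, t)` -/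
def CoreStmt : Prop :=
  ∀ (c1 : ℕ) (T : Type) [Rp T],
    ∃ (core : Rn T × Pm × Gf × ℕ × ℕ × T → R (Arr ℕ)) (c2 e0 e : ℕ), Impl core ∧
      ∀ᶠ N : ℕ in atTop, ∀ Q : ℕ, (Nat.log 2 N + 2) ^ e ≤ Q → Q ^ e ≤ N →
        ∀ (g : Gl) (run : Rn T) (Sh : T → Prop) (I : Ip.St T → Net → Prop) (Φ : Ip.St T → ℝ)
          (G : Gf) (t0 : T), (N + 2) ^ c2 ≤ g.X → 1 / ((N : ℝ) + 2) ^ 3 ≤ g.d → g.d < 1 →
          IpSpec g run (rawF c1 N Q (N * Q ^ e0)).P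
            ((rawF c1 N Q (N * Q ^ e0)).B (128 * (N + 1)) (128 * (N + 1))) (icF N Q) Sh I Φ →
          G.WF → G.n ≤ 4 * N + 4 → Sh t0 →
          Sp g (core (run, (rawF c1 N Q (N * Q ^ e0)).P, G, N, Q, t0)) fun m t =>
            IsM (Finset.range G.n) G.E m.get ∧ (∀ m', IsM (Finset.range G.n) G.E m' →
              ex (Finset.range G.n) m.get ≤ ex (Finset.range G.n) m') ∧ t ≤ N * Q ^ e

/-- parameters, darts, machine -/
def algM {T : Type} (c1 e0 : ℕ) (run : ℕ × ℕ × ℕ → Rn T)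
    (core : Rn T × Pm × Gf × ℕ × ℕ × T → R (Arr ℕ))
    (u : ℕ × ℕ × ℕ × T × ℕ × Arr (List ℕ)) : R (Arr ℕ) :=
  nat (u.1 * u.2.1 ^ e0) >>= fun F => rawFR c1 u.1 u.2.1 F >>= fun r => parR r >>= fun x =>
    mkG u.2.2.2.2.1 u.2.2.2.2.2 >>= fun G =>
      call core (run (u.2.2.1, x.2.1, x.2.2.1), x.1, G, u.1, u.2.1, u.2.2.2.1)

theorem impl_algM {T : Type} [Rp T] (c1 e0 : ℕ) {run : ℕ × ℕ × ℕ → Rn T}
    {core : Rn T × Pm × Gf × ℕ × ℕ × T → R (Arr ℕ)}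
    (h1 : Impl fun p : (ℕ × ℕ × ℕ) × Cmd × T => run p.1 p.2) (h2 : Impl core) :
    Impl (algM c1 e0 run core) := by
  have h3 : Pu true fun a => run a := Pu.lam h1
  unfold algM; impl

/-- **seam (P) from seam (C)** -/
theorem match_of_core (h : CoreStmt) : MatchStmt := by
  refine ⟨40, fun c1 T _ run hr => ?_⟩
  obtain ⟨core, c2, e0, e, i1, h⟩ := h c1 T
  refine ⟨algM c1 e0 run core, fun N Q => (rawF c1 N Q (N * Q ^ e0)).θ,
    fun N Q => (rawF c1 N Q (N * Q ^ e0)).κ, c2 + 13 * (c1 + 8), e + e0 + 50,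
    impl_algM c1 e0 hr i1, ?_⟩
  filter_upwards [h] with N h Q q1 q2
  have l2 : 2 ≤ Nat.log 2 N + 2 := by omega
  have b1 : 2 ^ 50 ≤ Q :=
    ((Nat.pow_le_pow_right two_pos (by omega)).trans (Nat.pow_le_pow_left l2 _)).trans q1
  have pw : ∀ i ≤ e + e0 + 50, Q ^ i ≤ N := fun i hi =>
    (Nat.pow_le_pow_right (by omega) hi).trans q2
  have b2 := pw 1 (by omega)
  rw [pow_one] at b2
  have b3 : N * Q ^ e0 ≤ (N + 2) ^ 3 := by
    have := Nat.mul_le_mul_left N (pw e0 (by omega))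
    nlinarith [Nat.zero_le (N ^ 3)]
  obtain ⟨k1, k2, k3, k4, k5, k6, k7⟩ := ip_kF (c1 := c1) b1 (pw 4 (by omega)) b3
  refine ⟨k3, k4, k5, k6.trans (xpow_mono N (by omega)), ?_⟩
  intro g hh Sh I Ψ t0 n E adj x1 x2 d1 hT hs hn hc
  have x3 : (N + 2) ^ (13 * (c1 + 8)) ≤ g.X := (xpow_mono N (by omega)).trans x1
  have x4 : (N + 2) ^ 3 ≤ g.X := (xpow_mono N (by omega)).trans x1
  obtain ⟨I', Φ, hI⟩ := k7 T g _ Sh I Ψ x3 hT
  refine sp_bind.2 (sp_nat.2 ⟨b3.trans x4, ?_⟩)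
  refine (sp_rawFR (le_trans (by nlinarith [Nat.zero_le (N ^ 3)]) x4)
    ((xpow_mono N (by omega)).trans x1)).bind ?_
  rintro _ _ ⟨rfl, rfl⟩
  refine (sp_parR k1 k2 (by rw [← pow_mul, mul_comm (c1 + 8)]; exact x3)).bind ?_
  rintro _ _ ⟨rfl, rfl⟩
  refine (sp_mkG hc).bind ?_
  rintro G t1 ⟨w, rfl, rfl, e1⟩
  refine sp_call.2 ((h Q (le_trans (Nat.pow_le_pow_right (by omega) (by omega)) q1)
    (pw e (by omega)) g _ Sh I' Φ G t0 ((xpow_mono N (by omega)).trans x1) x2 d1 hI w hn hs).mono ?_)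
  rintro m t2 ⟨m1, m2, e2⟩
  refine ⟨m1, fun m' hm => (m2 m' hm).trans (Nat.le_add_right _ _), ?_⟩
  have y1 : 1 ≤ Q ^ e := Nat.one_le_pow _ _ (by omega)
  have y2 : Q ^ e * Q ≤ Q ^ (e + e0 + 50) := by
    rw [← pow_succ]; exact Nat.pow_le_pow_right (by omega) (by omega)
  have y3 : Q ^ e * 1000 ≤ Q ^ (e + e0 + 50) := (Nat.mul_le_mul_left _ (by omega)).trans y2
  have y4 := Nat.mul_le_mul_left N y3
  have y5 := Nat.mul_le_mul_left N y1
  rw [← mul_assoc] at y4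
  omega

end Crest.Agent.N325.Fin
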