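import Crest.Agent.N325.Fin.Fam
import Crest.Agent.N325.Sg.PkR

/-! # Row 325 (helper64): seam (O) from the stages with the parameters `Pk` -/

set_option autoImplicit false

namespace Crest.Agent.N325.Fin

open Filter Tw Sg Sg.Pk

/-- the stages meet their specifications -/
def StgStmt : Prop :=
  ∀ c, 2 ≤ c → ∀ᶠ N : ℕ in atTop, ∀ g : Gl, XB c N ≤ g.X → ∀ i < lev N,
    ∃ I Φ rc, StageSpec g (stage lf bx) (ps c N i) ((Pk.tp c N).sc i) I Φ rc

theorem Fam.mono {c c' : ℕ} {p : ℕ → TP} (h : Fam c' p) (hc : c ≤ c') : Fam c p :=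
  { h with
    nb := fun N => (Nat.pow_le_pow_right (by omega) hc).trans (h.nb N)
    lb := fun N => (Nat.pow_le_pow_right (by omega) hc).trans (h.lb N)
    gb := fun N => (Nat.pow_le_pow_right (by omega) hc).trans (h.gb N) }

theorem stage_of_stg (h : StgStmt) : StageStmt := by
  intro c0
  obtain ⟨c1, hc⟩ := (pb_XB (c0 + 2)).add (pb_ZB (c0 + 2))
  refine ⟨_, _, inferInstance, inferInstance, stage lf bx, par (c0 + 2), Pk.tp (c0 + 2),
    c1,
    tP (c0 + 2), impl_stage, impl_par _, sq_tP _, (fam _).mono (Nat.le_add_right _ _), ?_⟩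
  filter_upwards [h (c0 + 2) (Nat.le_add_left _ _), hc] with N h1 h2 g hX
  exact ⟨ps (c0 + 2) N, fun i hi => ⟨sp_par (by omega) hi.le, h1 g (by omega) i hi⟩⟩

theorem oracle_of_stg (h : StgStmt) : OracleStmt := oracle_of_stage (stage_of_stg h)

end Crest.Agent.N325.Fin
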