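import Crest.Agent.N325.Fin.Defs
import Crest.Agent.N325.Sg.Par
import Crest.Agent.N325.Sg.Sub
import Crest.Agent.N325.Ip.Weak
import Crest.Agent.N325.Tw.Tower
import Crest.Agent.N325.Tw.Impl

/-! # Row 325 (helper64): the oracle from a family of stages -/

set_option autoImplicit false

namespace Crest.Agent.N325.Fin

open Filter Tw Sg

/-- the ratio of the sizes of consecutive levels -/
def rO (_c N : ℕ) : ℕ := rt (lev N) (128 * (N + 1))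

/-- the parameters of the towers -/
structure Fam (c0 : ℕ) (p : ℕ → TP) : Prop where
  L : ∀ N, (p N).L = lev N
  r : ∀ N, (p N).r = rO c0 N
  ψ : ∀ N, (p N).ψ = 1
  wt : ∀ N, (p N).wt = 1
  cc : ∀ N, (p N).cc = (p N).K + 2
  nb : ∀ N, (N + 2) ^ c0 ≤ (p N).nb
  lb : ∀ N, (N + 2) ^ c0 ≤ (p N).lb
  gb : ∀ N, (N + 2) ^ c0 ≤ (p N).gb
  lbP : PolyB fun N => (p N).lb
  gbP : PolyB fun N => (p N).gb
  RU1 : ∀ N, 1 ≤ (p N).RU
  ql1 : ∀ N, 1 ≤ (p N).ql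
  RU : SubL fun N => (p N).RU
  ρ : SubL fun N => (p N).ρ
  A : SubL fun N => (p N).A
  K : SubQ fun N => (p N).K
  TU : SubQ fun N => (p N).TU
  Tb : SubQ fun N => (p N).Tb
  ql : PolyB fun N => (p N).ql ^ lev N

/-- **the stages of all levels** -/
def StageStmt : Prop :=
  ∀ c0 : ℕ, ∃ (S P : Type) (_ : Rp S) (_ : Rp P) (σ : Stage S P) (par : ℕ × ℕ → R (Lv S P))
    (p : ℕ → TP) (c1 : ℕ) (G : ℕ → ℕ), StageImpl σ ∧ Impl par ∧ SubQ G ∧ Fam c0 p ∧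
    ∀ᶠ N : ℕ in atTop, ∀ g : Gl, (N + 2) ^ c1 ≤ g.X → ∃ ps : ℕ → P, ∀ i < lev N,
      (Sp g (par (N, i)) fun v t => v.p = ps i ∧ v.lim = rO c0 N ^ i ∧ t ≤ G N) ∧
        ∃ I Φ rc, StageSpec g σ (ps i) ((p N).sc i) I Φ rc

theorem subQ_rO (c : ℕ) : SubQ (rO c) :=
  SubQ.rt_of (G := fun N => 128 * (N + 1)) (by fun_prop)

theorem lt_rO_pow (c N : ℕ) : 128 * (N + 1) < rO c N ^ lev N := lt_rt_pow (lev_pos N) _

theorem rO_pow_le (c N : ℕ) : rO c N ^ lev N ≤ (c + 128) * (N + 1) * 2 ^ lev N := by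
  rw [rO, rt, ← pow_mul, add_mul, one_mul, pow_add]
  exact Nat.mul_le_mul_right _ ((Nat.pow_le_pow_right two_pos (Nat.div_mul_le_self _ _)).trans
    ((Nat.pow_log_le_self 2 (by positivity)).trans (Nat.mul_le_mul_right _ (Nat.le_add_left _ _))))

/-- the levels -/
def mkT {S P : Type} (par : ℕ × ℕ → R (Lv S P)) (N : ℕ) : R (ℕ × List (Lv S P)) :=
  levR N >>= fun L => par (N, 0) >>= fun v =>
    forN (fun i l => par (N, i) >>= fun w => pure (w :: l)) L 0 [v] >>= fun l => pure (L, l)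

theorem impl_mkT {S P : Type} [Rp S] [Rp P] {par : ℕ × ℕ → R (Lv S P)} (h : Impl par) :
    Impl (mkT par) := by
  unfold mkT; impl

theorem sp_mkT {S P : Type} {par : ℕ × ℕ → R (Lv S P)} {g : Gl} {N G : ℕ} {ps : ℕ → P}
    {lim : ℕ → ℕ}
    (h : ∀ i < lev N, Sp g (par (N, i)) fun v t => v.p = ps i ∧ v.lim = lim i ∧ t ≤ G) :
    Sp g (mkT par N) fun r t => r.1 = lev N ∧ Shape ps lim (lev N) r.2 ∧
      t ≤ 4 * Nat.log 2 N + 5 + (lev N + 1) * (G + 1) := by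
  refine (sp_levR N).bind ?_
  rintro _ t ⟨rfl, h1⟩
  refine (h 0 (lev_pos N)).bind ?_
  rintro v u ⟨-, -, h2⟩
  refine (sp_forN' (fun j l => Shape ps lim j l) G (fun j l _ hj hl => ?_)
    (i := 0) (s := [v]) trivial).bind ?_
  · refine (h j (by omega)).bind ?_
    rintro w _ ⟨a, b, c⟩
    exact sp_pure.2 ⟨⟨a, b, hl⟩, by omega⟩
  · rintro l w ⟨a, b⟩
    exact sp_pure.2 ⟨rfl, by simpa using a, by rw [add_mul]; omega⟩

/-- the losses of the tower -/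
def lossO (p : TP) (c N G : ℕ) : ℕ :=
  p.A ^ p.L + (p.ρ + 1) ^ p.L + (p.L + 1) + p.U * p.Q ^ p.L +
    (p.V + (p.wt + (p.L + 1) * p.cc) + 1) * p.Q ^ p.L +
    4 * (c + 128) * p.RU * 2 ^ p.L * (2 * (p.cc + 4) + p.W * p.Q ^ p.L) +
    (4 * Nat.log 2 N + 5 + (p.L + 1) * (G + 1))

variable {c0 : ℕ} {p : ℕ → TP}

theorem Fam.subQ (h : Fam c0 p) {G : ℕ → ℕ} (hG : SubQ G) :
    SubQ fun N => lossO (p N) c0 N (G N) := by
  have a1 := h.A.pow_lev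
  have a2 := (h.ρ.add (SubL.const 1)).pow_lev
  have a3 := ((SubL.const 16).mul h.RU).pow_lev
  have a4 := (SubL.const 2).pow_lev
  have a5 := h.RU.subQ
  have a6 := h.K
  have a7 := h.TU
  have a8 := h.Tb
  have a9 := subQ_rO c0
  simp only [lossO, TP.U, TP.V, TP.W, TP.Q, TP.Kb, TP.Tz, TP.m, h.L, h.r, h.wt, h.cc, pow_zero]
  refine ((((((a1.add a2).add ?_).add (SubQ.mul ?_ a3)).add (SubQ.mul ?_ a3)).add
    (SubQ.mul (SubQ.mul ?_ a4) (SubQ.add ?_ (SubQ.mul ?_ a3)))).add ?_) <;> fun_prop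

theorem Fam.polyB (h : Fam c0 p) (c : ℕ) :
    PolyB fun N => (p N).LK + (p N).GK + (p N).Kb + (lev N + 2) + (N + 2) ^ c := by
  have a1 := h.ql
  have a2 := h.RU.subQ.polyB
  have a3 := h.K.polyB
  have a4 := SubQ.lev.polyB
  have a5 := h.lbP
  have a6 := h.gbP
  simp only [TP.LK, TP.GK, TP.Kb, TP.m, h.L, pow_zero]
  refine (((PolyB.mul ?_ (PolyB.mul ?_ a1)).add (PolyB.mul ?_ (PolyB.mul ?_ a1))).add ?_ |>.add
    ?_).add ?_ <;> fun_prop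

theorem Fam.weak (h : Fam c0 p) {N G Q θ κ : ℕ} (hN : 1 ≤ N) (hθ : 1 ≤ θ)
    (hQ : lossO (p N) c0 N G ≤ Q) : ((p N).tc θ κ (p N).L).Weak (kO c0 N Q θ κ) := by
  have m1 : 128 * (N + 1) ≤ (p N).m (p N).L := by
    have := lt_rO_pow c0 N
    have := h.RU1 N
    rw [TP.m, h.r, h.L]; nlinarith
  have m2 : (p N).m (p N).L ≤ N * (4 * (c0 + 128) * (p N).RU * 2 ^ (p N).L) := by
    have := Nat.mul_le_mul_left (2 * (p N).RU) ((rO_pow_le c0 N).trans (Nat.mul_le_mul_right _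
      (Nat.mul_le_mul_left (c0 + 128) (by omega : N + 1 ≤ 2 * N))))
    rw [TP.m, h.r, h.L]; linarith
  have s1 : (p N).S0 θ κ ≤ ((p N).wt + ((p N).L + 1) * (p N).cc) * (κ / θ + 1) + 1 :=
    Nat.add_le_add_right (Nat.div_le_of_le_mul (by
      rw [mul_left_comm]; exact Nat.mul_le_mul_left _ (Nat.lt_mul_div_succ κ hθ).le)) 1
  unfold lossO at hQ
  rw [mul_add (4 * _ * _ * _)] at hQ
  refine ⟨?_, ?_, ?_, ?_, ?_, ?_, ?_, ?_, ?_, ?_, ?_, ?_, ?_, ?_⟩ <;>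
    simp only [TP.tc, kO, TP.bd_top, TP.th]
  · exact m1
  · exact h.nb N
  · exact h.lb N
  · exact h.gb N
  · rw [h.ψ]; omega
  · exact (h.ψ N).ge
  · exact Nat.mul_le_mul_left _ (by omega)
  · rw [add_mul]
    exact add_le_add (Nat.mul_le_mul_left _ (by omega)) (Nat.le_mul_of_pos_right _ (by omega))
  · rw [h.wt]; omega
  · rw [h.cc]; omega
  · omega
  · refine le_trans ?_ (Nat.mul_le_mul_left (κ / θ + 1) (by omega :
      ((p N).V + ((p N).wt + ((p N).L + 1) * (p N).cc) + 1) * (p N).Q ^ (p N).L ≤ Q))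
    rw [← mul_assoc]
    refine Nat.mul_le_mul_right _ ?_
    nlinarith [Nat.zero_le (κ / θ * (p N).V), Nat.zero_le (κ / θ)]
  · refine (Nat.mul_le_mul_left _ m2).trans ?_
    rw [mul_left_comm]
    exact Nat.mul_le_mul_left _ (by rw [mul_comm]; omega)
  · rw [mul_assoc]
    refine (Nat.mul_le_mul_right _ m2).trans ?_
    rw [mul_assoc]
    exact Nat.mul_le_mul_left _ (by omega)

/-- **seam (O) from the stages** -/
theorem oracle_of_stage (hS : StageStmt) : OracleStmt := by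
  intro c0
  obtain ⟨S, P, _, _, σ, par, p, c, G, i1, i2, hG, hF, hS⟩ := hS c0
  obtain ⟨c1, hc⟩ := hF.polyB c
  refine ⟨List (Lv S P), inferInstance, mkT par,
    fun a x => tower a.2.1 a.2.2 σ (Tw.Bot.bot 1) a.1 x, c1, _, impl_mkT i2, ?_, hF.subQ hG, ?_⟩
  · exact (impl_tower (α := ℕ × ℕ × ℕ) (θ := fun a => a.2.1) (κ := fun a => a.2.2)
      (bot := fun _ => Tw.Bot.bot 1) i1 (by fun_prop) (by fun_prop) (by fun_prop)).comp
      (f := fun q : (ℕ × ℕ × ℕ) × Cmd × List (Lv S P) => (q.1, q.1.1, q.2)) (by fun_prop)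
  filter_upwards [hS, hc, eventually_ge_atTop 1] with N hS hc hN g Q θ κ hQ h1 h2 h3 h4
  have x1 : (N + 2) ^ c1 ≤ g.X := (Nat.le_mul_of_pos_left _ (by omega)).trans h4
  obtain ⟨ps, hS⟩ := hS g (by omega)
  have ok : (p N).Ok g.X θ κ := by
    refine ⟨h1, by rw [hF.r]; exact two_le_rt _ _, hF.RU1 N, hF.ql1 N, (hF.cc N).ge, by omega,
      le_trans ?_ ((Nat.mul_le_mul_left κ (by omega : lev N + 2 ≤ (N + 2) ^ c1)).trans h4), by omega⟩
    rw [hF.L]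
    nlinarith [Nat.mul_le_mul_right (lev N + 1) h2]
  have b1 : (p N).Kb * ((p N).bd 0).lb ≤ (p N).LK :=
    Nat.mul_le_mul (Nat.le_add_left _ _) (TP.lb_le ok.ql1 0)
  have b2 : (p N).Kb * ((p N).bd 0).gb ≤ (p N).GK :=
    Nat.mul_le_mul (Nat.le_add_left _ _) (TP.gb_le ok.ql1 0)
  have hb : BotSpec g (Tw.Bot.bot 1) ((p N).tc θ κ 0).c ((p N).tc θ κ 0).ψ (p N).Kb (p N).Tz := by
    have e : ((p N).tc θ κ 0).ψ = 1 := hF.ψ N
    rw [e]
    refine Tw.Bot.botSpec (c := (p N).bd 0) ?_ ?_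
    · change (p N).Kb * _ ≤ _
      rw [one_mul, mul_add]; omega
    · have : (p N).Kb = 2 * ((p N).bd 0).m + 1 := rfl
      omega
  obtain ⟨I, Ψ, hT⟩ := tower_spec (ps := ps) (sc := (p N).sc) (Z := (p N).Z) hb (TP.fitB ok)
    (p N).L (fun i hi => (hS i (hF.L N ▸ hi)).2) fun i hi => TP.fit ok hi
  refine ⟨(p N).L, _, I, Ψ, ?_, hT.weak (hF.weak hN h1 hQ)⟩
  refine (sp_mkT (G := G N) (ps := ps) (lim := fun i => ((p N).sc i).lim) fun i hi =>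
    (hS i hi).1.mono fun v t k => ⟨k.1, k.2.1.trans ?_, k.2.2⟩).mono ?_
  · rw [← hF.r]; rfl
  · rintro r t ⟨a, b, d⟩
    rw [hF.L]
    refine ⟨a, b, le_trans ?_ (Nat.le_mul_of_pos_left Q hN)⟩
    unfold lossO at hQ
    rw [hF.L] at hQ
    omega

end Crest.Agent.N325.Fin
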