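import Crest.Agent.N325.Fin.Or
import Crest.Agent.N325.Sg.PkStg

/-! # Row 325 (helper51): seam (O) -/

set_option autoImplicit false

namespace Crest.Agent.N325.Fin

theorem stgStmt : StgStmt := fun c hc =>
  (Sg.Pk.ev c).mono fun _ E _ hX _ hi => Sg.Pk.stg hc E hX hi

/-- **the oracle** -/
theorem oracleStmt : OracleStmt := oracle_of_stg stgStmt

end Crest.Agent.N325.Fin
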