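import Crest.Agent.N325.Fin.Defs
import Crest.Agent.N325.Mt.Deg3
import Crest.Agent.N325.Mt.SlowImpl

/-!
# Row 325 (helper57): the final assembly from the two seams
-/

set_option autoImplicit false

namespace Crest.Agent.N325.Fin

open Filter Tw Mt Crest.GraphRAM

/-- the whole algorithm -/
def algF {T : Type} (mk : ℕ → R (ℕ × T)) (alg : ℕ × ℕ × ℕ × T × ℕ × Arr (List ℕ) → R (Arr ℕ))
    (inp : List ℕ) : R (List ℕ) :=
  parseAdj inp >>= fun r => sizeR inp >>= fun N => qqR N >>= fun Q => call mk N >>= fun t =>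
    deg3 r.1 r.2 >>= fun d => nat (2 * d.1) >>= fun n =>
      call alg (N, Q, t.1, t.2, n, d.2.2.2) >>= fun m => back r.1 d.1 d.2.1 d.2.2.1 m >>= fun m' =>
        nat (Q + 1) >>= fun k => endR r.1 r.2 N k m'

theorem impl_algF {T : Type} [Rp T] {mk : ℕ → R (ℕ × T)}
    {alg : ℕ × ℕ × ℕ × T × ℕ × Arr (List ℕ) → R (Arr ℕ)} (h1 : Impl mk) (h2 : Impl alg) :
    Impl (algF mk alg) := by
  unfold algF; impl

theorem cub_E3 {V : Finset ℕ} {E : ℕ → ℕ → Prop} {D : ℕ} {own rev : ℕ → ℕ}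
    (h : Gd V E D own rev) {A : Arr (List ℕ)} (hA : Adj (Finset.range (2 * D)) (E3 D own rev) A)
    (hd : ∀ a, (A.get a).Nodup ∧ (A.get a).length ≤ 3) : Cub (2 * D) (E3 D own rev) A := by
  refine ⟨h.symm3, h.irr3, ?_, hA, fun v => (hd v).1, fun v => (hd v).2⟩
  rintro a b ⟨p, hp, ⟨x, y⟩ | ⟨x, y⟩⟩
  · have := (h.rv p hp).1; omega
  · have := x.1; omega

/-- **the row from the two seams** -/
theorem goal_of_seams (hO : OracleStmt) (hM : MatchStmt) : Goal := by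
  obtain ⟨c0, hM⟩ := hM
  obtain ⟨T, _, mk, run, c1, G, i1, i2, hG, hO⟩ := hO c0
  obtain ⟨alg, θ, κ, c2, e, i3, hM⟩ := hM c1 T run i2
  refine goal_pq slow (algF mk alg) slowS
    (fun N => qq N ^ e + qq N + (qq N + 1) * (2 * Nat.log 2 N + 60) + 200) (c1 + c2 + 3) impl_slow
    (impl_algF i1 i3) (by fun_prop) sp_slow ?_
  have a1 : SubQ fun N => (Nat.log 2 N + 2) ^ e := (SubQ.log.add (SubQ.const 2)).pow e
  have a2 : PwQ fun N => qq N ^ e := by fun_prop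
  have a3 : PwQ fun N => qq N + 1 := by fun_prop
  filter_upwards [hO, hM, hG.le_qq, a1.le_qq, a2.le_self, a3.le_self, eventually_ge_atTop 100]
    with N hO hM b1 b2 b3 b4 b5 n Γ adj hn hadj hN
  obtain ⟨k1, k2, k3, k4, hM⟩ := hM (qq N) b2 b3
  have x1 : (N + 2) ^ c2 ≤ (N + 2) ^ (c1 + c2 + 3) := Nat.pow_le_pow_right (by omega) (by omega)
  have x2 : (N + 2) ^ 3 ≤ (N + 2) ^ (c1 + c2 + 3) := Nat.pow_le_pow_right (by omega) (by omega)
  have x3 : κ N (qq N) * (N + 2) ^ c1 ≤ (N + 2) ^ (c1 + c2 + 3) :=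
    (Nat.mul_le_mul_right _ k4).trans (by
      rw [← pow_add]; exact Nat.pow_le_pow_right (by omega) (by omega))
  have x4 : 2 * ((N + 9) * (N + 9)) ≤ (N + 2) ^ 3 := by nlinarith
  obtain ⟨h, Sh, I, Ψ, s1, s2⟩ := hO ⟨(N + 2) ^ (c1 + c2 + 3), 1 / ((N : ℝ) + 2) ^ 3⟩ (qq N) _ _
    b1 k1 k2 k3 x3
  have hn' := le_sizeN n adj
  have hD : ∑ v, (adj v).length ≤ 2 * sizeN n adj + 1 := by rw [sizeN]; omega
  rw [hN] at hn' hD
  refine (sp_parseAdj n adj).bind ?_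
  rintro ⟨n', A⟩ t0 ⟨en, hA, e0⟩
  obtain rfl : n = n' := en.symm
  refine (sp_sizeR n adj).bind ?_
  rintro _ t1 ⟨rfl, e1⟩
  refine (sp_qqR (by dsimp only; nlinarith)).bind ?_
  rintro _ t2 ⟨rfl, e2⟩
  rw [hN] at e1 e2 ⊢
  refine sp_bind.2 (sp_call.2 (s1.mono ?_))
  rintro ⟨h', t⟩ t3 ⟨rfl, hs, e3⟩
  have hA' : A.get = adjN n adj := hA
  have hS : ∑ v ∈ Finset.range n, (A.get v).length = ∑ v, (adj v).length := by
    rw [hA', sum_adjN]
  refine (sp_deg3 (relN_symm Γ) (relN_irrefl Γ) (adj_adjN hadj hA')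
    (fun v => by rw [hA']; exact nodup_adjN hadj v) (by dsimp only; nlinarith)).bind ?_
  rintro ⟨D, own, rev, A2⟩ t4 ⟨eD, gd, ad, dg, e4⟩
  dsimp only at *
  refine sp_bind.2 (sp_nat.2 ⟨by dsimp only; nlinarith, ?_⟩)
  have d1 : 1 / ((N : ℝ) + 2) ^ 3 < 1 := by
    rw [div_lt_one (by positivity)]
    exact one_lt_pow₀ (by linarith [Nat.cast_nonneg (α := ℝ) N]) (by norm_num)
  refine sp_bind.2 (sp_call.2 ((hM _ _ Sh I Ψ t _ _ A2 x1 le_rfl d1 s2 hs (by omega)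
    (cub_E3 gd ad dg)).mono ?_))
  rintro m t5 ⟨m1, m2, e5⟩
  refine (sp_back (relN_symm Γ) gd m1 m2).bind ?_
  rintro m' t6 ⟨m3, m4, e6⟩
  refine sp_bind.2 (sp_nat.2 ⟨by dsimp only; nlinarith, ?_⟩)
  have s7 := sp_endR (g := ⟨(N + 2) ^ (c1 + c2 + 3), 1 / ((N : ℝ) + 2) ^ 3⟩) hadj hA' m3 m4 le_rfl
    (by rw [hN]; exact x4.trans x2)
  rw [hN] at s7
  refine s7.mono fun out t7 k => ⟨k.1, ?_⟩
  have e7 := k.2
  have y1 : cE N ≤ N * (2 * Nat.log 2 N + 60) := by rw [cE]; nlinarith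
  have y2 := Nat.mul_le_mul_left (qq N + 1) y1
  have y3 : (qq N + 1) * (N * (2 * Nat.log 2 N + 60)) =
      N * ((qq N + 1) * (2 * Nat.log 2 N + 60)) := by ring
  simp only [mul_add N]
  omega

end Crest.Agent.N325.Fin
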